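import Crest.Agent.R062.EndComplete

/-!
Row 62: the finishing algorithm (greedy until few stubs are left, then exhaustive search) and
its correctness.
-/

set_option autoImplicit false

namespace Crest.Agent.R062.EndAlg

open Crest.Agent.R062.Pairs Crest.Agent.R062.EndComplete

/-- all pairs of stubs -/
def allPairs (M : ℕ) : List (ℕ × ℕ) :=
  (List.range M).flatMap fun x => (List.range M).map fun y => (x, y)

theorem mem_allPairs {M x y : ℕ} : (x, y) ∈ allPairs M ↔ x < M ∧ y < M := by
  simp [allPairs]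

/-- one greedy step -/
def step1 (d n : ℕ) (P : List (ℕ × ℕ)) : List (ℕ × ℕ) :=
  match (allPairs (n * d)).find? (fun p => decide (Adm d n P p)) with
  | none => P
  | some p => p :: P

/-- one greedy step if there are many free stubs -/
def stepA (d n : ℕ) (P : List (ℕ × ℕ)) : List (ℕ × ℕ) :=
  if 2 * P.length + thr d < n * d then step1 d n P else P

theorem step1_spec {d n : ℕ} {P : List (ℕ × ℕ)} (hV : Valid d n P) (hex : ∃ p, Adm d n P p) :
    ∃ p, step1 d n P = p :: P ∧ Valid d n (p :: P) := by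
  unfold step1
  obtain ⟨p, hp⟩ := hex
  have hmem : p ∈ allPairs (n * d) := by
    obtain ⟨x, y⟩ := p
    exact mem_allPairs.2 ⟨hp.1.1, hp.1.2.1⟩
  rcases h : (allPairs (n * d)).find? (fun p => decide (Adm d n P p)) with _ | q
  · rw [List.find?_eq_none] at h
    exact absurd hp (by simpa using h p hmem)
  · have := List.find?_some h
    exact ⟨q, rfl, valid_cons.2 ⟨by simpa using this, hV⟩⟩

theorem stepA_spec {d n : ℕ} (hd : 0 < d) {P : List (ℕ × ℕ)} (hV : Valid d n P)
    (hf : thr d ≤ (freeF d n P).card + 1) :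
    Valid d n (stepA d n P) ∧ P <:+ stepA d n P ∧ thr d ≤ (freeF d n (stepA d n P)).card + 1 ∧
      ((stepA d n P).length = P.length + 1 ∨
        ((freeF d n P).card ≤ thr d ∧ stepA d n P = P)) := by
  have hc := card_freeF hV
  unfold stepA
  split_ifs with h
  · have hbig : (d + 1) * d < (freeF d n P).card := by
      unfold thr at h
      omega
    obtain ⟨x, hx⟩ : (freeF d n P).Nonempty := by
      rw [← Finset.card_pos]; omega
    obtain ⟨y, hy⟩ := exists_partner hd hV hbig hx
    obtain ⟨p, hp, hpV⟩ := step1_spec hV ⟨_, hy⟩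
    rw [hp]
    have hc' := card_freeF hpV
    simp only [List.length_cons] at hc'
    refine ⟨hpV, List.suffix_cons _ _, ?_, Or.inl rfl⟩
    omega
  · refine ⟨hV, List.suffix_refl _, hf, Or.inr ⟨?_, rfl⟩⟩
    omega

theorem stageA_spec {d n : ℕ} (hd : 0 < d) {P : List (ℕ × ℕ)} (hV : Valid d n P)
    (hf : thr d ≤ (freeF d n P).card + 1) (k : ℕ) :
    Valid d n ((stepA d n)^[k] P) ∧ P <:+ (stepA d n)^[k] P ∧
      thr d ≤ (freeF d n ((stepA d n)^[k] P)).card + 1 ∧
      (k ≤ ((stepA d n)^[k] P).length ∨ (freeF d n ((stepA d n)^[k] P)).card ≤ thr d) := by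
  induction k with
  | zero => exact ⟨hV, List.suffix_refl _, hf, Or.inl (Nat.zero_le _)⟩
  | succ k ih =>
    rw [Function.iterate_succ_apply']
    obtain ⟨h1, h2, h3, h4⟩ := ih
    obtain ⟨g1, g2, g3, g4⟩ := stepA_spec hd h1 h3
    refine ⟨g1, h2.trans g2, g3, ?_⟩
    rcases g4 with g4 | g4
    · rcases h4 with h4 | h4
      · left; omega
      · right
        have e1 := card_freeF h1
        have e2 := card_freeF g1
        omega
    · right
      rw [g4.2]; exact g4.1

/-- expansion of a list of partial matchings by all admissible pairs -/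
def expand (d n : ℕ) (L : List (List (ℕ × ℕ))) : List (List (ℕ × ℕ)) :=
  L.flatMap fun Q => if 2 * Q.length = n * d then [Q] else
    ((allPairs (n * d)).filter (fun p => decide (Adm d n Q p))).map (fun p => p :: Q)

theorem expand_valid {d n : ℕ} {P : List (ℕ × ℕ)} {L : List (List (ℕ × ℕ))}
    (h : ∀ Q ∈ L, Valid d n Q ∧ P <:+ Q) : ∀ Q ∈ expand d n L, Valid d n Q ∧ P <:+ Q := by
  intro Q hQ
  unfold expand at hQ
  rw [List.mem_flatMap] at hQ
  obtain ⟨R, hR, hQ⟩ := hQ
  obtain ⟨h1, h2⟩ := h R hR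
  split_ifs at hQ with hc
  · rw [List.mem_singleton] at hQ
    rw [hQ]; exact ⟨h1, h2⟩
  · rw [List.mem_map] at hQ
    obtain ⟨p, hp, rfl⟩ := hQ
    rw [List.mem_filter] at hp
    have hp2 : Adm d n R p := by simpa using hp.2
    exact ⟨valid_cons.2 ⟨hp2, h1⟩, h2.trans (List.suffix_cons _ _)⟩

theorem expand_full {d n : ℕ} {L : List (List (ℕ × ℕ))} {Q : List (ℕ × ℕ)} (hQ : Q ∈ L)
    (hf : 2 * Q.length = n * d) : Q ∈ expand d n L := by
  unfold expand
  rw [List.mem_flatMap]
  exact ⟨Q, hQ, by rw [if_pos hf]; simp⟩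

theorem expand_cons {d n : ℕ} {L : List (List (ℕ × ℕ))} {p : ℕ × ℕ} {Q : List (ℕ × ℕ)}
    (hQ : Q ∈ L) (hV : Valid d n (p :: Q)) : (p :: Q) ∈ expand d n L := by
  unfold expand
  rw [List.mem_flatMap]
  refine ⟨Q, hQ, ?_⟩
  have h1 := length_le hV
  rw [List.length_cons] at h1
  rw [if_neg (by omega), List.mem_map]
  refine ⟨p, ?_, rfl⟩
  rw [List.mem_filter]
  have h2 := (valid_cons.1 hV).1
  obtain ⟨x, y⟩ := p
  exact ⟨mem_allPairs.2 ⟨h2.1.1, h2.1.2.1⟩, by simpa using h2⟩

theorem iterate_expand_mem {d n : ℕ} {P : List (ℕ × ℕ)} (New : List (ℕ × ℕ))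
    (hV : Valid d n (New ++ P)) : New ++ P ∈ (expand d n)^[New.length] [P] := by
  induction New with
  | nil => simp
  | cons p New ih =>
    rw [List.length_cons, Function.iterate_succ_apply', List.cons_append]
    exact expand_cons (ih (by simpa using hV.tail)) (by simpa using hV)

theorem iterate_expand_full {d n : ℕ} {L : List (List (ℕ × ℕ))} {Q : List (ℕ × ℕ)} (hQ : Q ∈ L)
    (hf : 2 * Q.length = n * d) (k : ℕ) : Q ∈ (expand d n)^[k] L := by
  induction k with
  | zero => simpa using hQ
  | succ k ih =>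
    rw [Function.iterate_succ_apply']
    exact expand_full ih hf

theorem iterate_expand_valid {d n : ℕ} {P : List (ℕ × ℕ)} (hV : Valid d n P) (k : ℕ) :
    ∀ Q ∈ (expand d n)^[k] [P], Valid d n Q ∧ P <:+ Q := by
  induction k with
  | zero =>
    intro Q hQ
    simp at hQ
    rw [hQ]; exact ⟨hV, List.suffix_refl _⟩
  | succ k ih =>
    rw [Function.iterate_succ_apply']
    exact expand_valid ih

/-- the finishing algorithm -/
def finish (d n : ℕ) (P : List (ℕ × ℕ)) : List (ℕ × ℕ) :=
  (((expand d n)^[thr d] [(stepA d n)^[n * d] P]).find?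
    (fun Q => decide (2 * Q.length = n * d))).getD []

theorem finish_spec {d n : ℕ} (hd : 0 < d) (hev : Even (n * d)) {P : List (ℕ × ℕ)}
    (hV : Valid d n P) (hf : 2 * P.length + thr d ≤ n * d + 1) :
    Valid d n (finish d n P) ∧ P <:+ finish d n P ∧ 2 * (finish d n P).length = n * d := by
  have hc := card_freeF hV
  obtain ⟨h1, h2, h3, h4⟩ := stageA_spec hd hV (by omega) (n * d)
  unfold finish
  generalize (stepA d n)^[n * d] P = Q at h1 h2 h3 h4 ⊢
  have hcQ := card_freeF h1
  have hsmall : (freeF d n Q).card ≤ thr d := by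
    rcases h4 with h4 | h4
    · omega
    · exact h4
  obtain ⟨New, hN1, hN2⟩ := exists_completion hd hev h1 (by unfold thr at h3; omega)
  have hNl : New.length ≤ thr d := by
    rw [List.length_append] at hN2
    omega
  have hmem : New ++ Q ∈ (expand d n)^[thr d] [Q] := by
    have e : thr d = (thr d - New.length) + New.length := by omega
    rw [e, Function.iterate_add_apply]
    exact iterate_expand_full (iterate_expand_mem New hN1) hN2 _
  rcases h : ((expand d n)^[thr d] [Q]).find? (fun Q => decide (2 * Q.length = n * d)) with _ | R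
  · rw [List.find?_eq_none] at h
    exact absurd hN2 (by simpa using h _ hmem)
  · have hR1 := List.find?_some h
    have hR2 := List.mem_of_find?_eq_some h
    obtain ⟨g1, g2⟩ := iterate_expand_valid h1 _ R hR2
    rw [h, Option.getD_some]
    exact ⟨g1, h2.trans g2, by simpa using hR1⟩

end Crest.Agent.R062.EndAlg
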