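import Crest.Agent.R062.Pairs

/-!
Row 62: a valid partial matching with sufficiently many free stubs has a simple completion
(greedy choice plus switchings among the new pairs).
-/

set_option autoImplicit false

namespace Crest.Agent.R062.EndComplete

open Crest.Agent.R062.Pairs

/-- the number of pairs meeting `Z` is at most `|Z|` -/
theorem length_le_of_all_hit {d n : ℕ} {P : List (ℕ × ℕ)} (h : Valid d n P) (Z : Finset ℕ)
    {New : List (ℕ × ℕ)} (hN : List.Sublist New P) (hit : ∀ q ∈ New, q.1 ∈ Z ∨ q.2 ∈ Z) :
    New.length ≤ Z.card := by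
  have h1 : New.length ≤ ((stubs New).filter (fun j => decide (j ∈ Z))).length := by
    clear hN
    induction New with
    | nil => simp
    | cons p New ih =>
      have h2 := ih (fun q hq => hit q (List.mem_cons_of_mem _ hq))
      rw [stubs_cons, List.filter_cons, List.filter_cons]
      rcases hit p List.mem_cons_self with h3 | h3
      · by_cases h4 : p.2 ∈ Z <;> simp [h3, h4] <;> omega
      · by_cases h4 : p.1 ∈ Z <;> simp [h3, h4] <;> omega
  have h2 : (stubs New).Nodup := by
    have : List.Sublist (stubs New) (stubs P) := by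
      unfold stubs
      exact hN.flatMap _
    exact (nodup_stubs h).sublist this
  have h3 : ((stubs New).filter (fun j => decide (j ∈ Z))).length ≤ Z.card := by
    rw [← List.toFinset_card_of_nodup (h2.filter _)]
    refine Finset.card_le_card ?_
    intro j hj
    simp at hj
    exact hj.2
  omega

theorem adjN_mono {d : ℕ} {P Q : List (ℕ × ℕ)} (h : ∀ q ∈ P, q ∈ Q) {v w : ℕ}
    (hA : AdjN d P v w) : AdjN d Q v w := by
  obtain ⟨q, hq, h'⟩ := hA
  exact ⟨q, h q hq, h'⟩

/-- the switching -/
theorem switch {d n : ℕ} (hd : 0 < d) {R : List (ℕ × ℕ)} {a b x y : ℕ}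
    (h : Valid d n ((a, b) :: R)) (hx : x ∈ freeF d n ((a, b) :: R))
    (hy : y ∈ freeF d n ((a, b) :: R)) (hxy : x ≠ y)
    (ha : a ∉ zone d ((a, b) :: R) (x / d)) (hb : b ∉ zone d ((a, b) :: R) (y / d))
    (hb' : b ∉ zone d ((a, b) :: R) (x / d)) :
    Valid d n ((y, b) :: (x, a) :: R) := by
  rw [mem_zone hd] at ha hb hb'
  push Not at ha hb hb'
  rw [mem_freeF, stubs_cons] at hx hy
  simp only [List.mem_cons, not_or] at hx hy
  obtain ⟨hx0, hx1, hx2, hx3⟩ := hx
  obtain ⟨hy0, hy1, hy2, hy3⟩ := hy
  have hV := h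
  rw [valid_cons] at h
  obtain ⟨hadm, hR⟩ := h
  obtain ⟨ha0, hb0, hab, hab'⟩ := adm_iff.1 hadm
  have hxR : x ∈ freeF d n R := mem_freeF.2 ⟨hx0, hx3⟩
  have hyR : y ∈ freeF d n R := mem_freeF.2 ⟨hy0, hy3⟩
  have mono : ∀ {v w : ℕ}, AdjN d R v w → AdjN d ((a, b) :: R) v w :=
    fun hA => adjN_mono (fun q hq => List.mem_cons_of_mem _ hq) hA
  have h1 : Adm d n R (x, a) :=
    adm_of hxR ha0 (Ne.symm ha.1) (fun hA => ha.2 (mono hA))
  have h1V : Valid d n ((x, a) :: R) := valid_cons.2 ⟨h1, hR⟩
  refine valid_cons.2 ⟨?_, h1V⟩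
  have hy1' : y ∈ freeF d n ((x, a) :: R) := by
    rw [mem_freeF, stubs_cons]
    simp only [List.mem_cons, not_or]
    exact ⟨hy0, hxy.symm, hy1, hy3⟩
  have hb1' : b ∈ freeF d n ((x, a) :: R) := by
    rw [mem_freeF] at hb0
    rw [mem_freeF, stubs_cons]
    simp only [List.mem_cons, not_or]
    refine ⟨hb0.1, Ne.symm hx2, ?_, hb0.2⟩
    rintro rfl
    exact hab rfl
  refine adm_of hy1' hb1' (Ne.symm hb.1) ?_
  rintro ⟨q, hq, hA⟩
  rw [List.mem_cons] at hq
  rcases hq with rfl | hq
  · rcases hA with ⟨h3, h4⟩ | ⟨h3, h4⟩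
    · exact hab h4
    · exact hb'.1 h3.symm
  · exact hb.2 (mono ⟨q, hq, hA⟩)

/-- the threshold -/
def thr (d : ℕ) : ℕ := 5 * ((d + 1) * d) + 2

theorem exists_completion_aux {d n : ℕ} (hd : 0 < d) (hev : Even (n * d)) {P : List (ℕ × ℕ)}
    (hf : 5 * ((d + 1) * d) < (freeF d n P).card) :
    ∀ (k : ℕ) (New : List (ℕ × ℕ)), Valid d n (New ++ P) →
      (freeF d n (New ++ P)).card = k →
      ∃ New', Valid d n (New' ++ P) ∧ 2 * (New' ++ P).length = n * d := by
  intro k
  induction k using Nat.strong_induction_on with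
  | _ k ih =>
    intro New hV hk
    have hc := card_freeF hV
    rcases Nat.eq_zero_or_pos k with hk0 | hk0
    · refine ⟨New, hV, ?_⟩
      omega
    · have hk2 : 2 ≤ k := by
        obtain ⟨r, hr⟩ := hev
        omega
      by_cases hbig : (d + 1) * d < k
      · obtain ⟨x, hx⟩ : (freeF d n (New ++ P)).Nonempty := by
          rw [← Finset.card_pos]; omega
        obtain ⟨y, hy⟩ := exists_partner hd hV (by omega) hx
        have hV' : Valid d n (((x, y) :: New) ++ P) := valid_cons.2 ⟨hy, hV⟩
        have hc' := card_freeF hV'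
        simp only [List.cons_append, List.length_cons] at hc'
        refine ih (k - 2) (by omega) ((x, y) :: New) hV' ?_
        simp only [List.cons_append]
        omega
      · -- switching
        have hone : 1 < (freeF d n (New ++ P)).card := by omega
        rw [Finset.one_lt_card] at hone
        obtain ⟨x, hx, y, hy, hxy⟩ := hone
        have hcP := card_freeF (hV.of_append_right)
        have hlen : 2 * ((d + 1) * d) < New.length := by
          rw [List.length_append] at hc
          omega
        have hex : ∃ q ∈ New, ¬ (q.1 ∈ zone d (New ++ P) (x / d) ∪ zone d (New ++ P) (y / d) ∨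
            q.2 ∈ zone d (New ++ P) (x / d) ∪ zone d (New ++ P) (y / d)) := by
          by_contra hcon
          push Not at hcon
          have h1 := length_le_of_all_hit hV _ (List.sublist_append_left New P) hcon
          have h2 := Finset.card_union_le (zone d (New ++ P) (x / d)) (zone d (New ++ P) (y / d))
          have h3 := card_zone_le hd hV (x / d)
          have h4 := card_zone_le hd hV (y / d)
          omega
        obtain ⟨⟨a, b⟩, hq, hqZ⟩ := hex
        obtain ⟨l1, l2, hl⟩ := List.append_of_mem hq
        have hperm : (New ++ P).Perm ((a, b) :: ((l1 ++ l2) ++ P)) := by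
          rw [hl]
          have : ((l1 ++ (a, b) :: l2) ++ P) = l1 ++ (a, b) :: (l2 ++ P) := by simp
          rw [this]
          refine List.perm_middle.trans ?_
          simp
        have hfree : freeF d n (New ++ P) = freeF d n ((a, b) :: ((l1 ++ l2) ++ P)) := by
          ext j
          rw [mem_freeF, mem_freeF, mem_stubs, mem_stubs]
          have : ∀ q, q ∈ New ++ P ↔ q ∈ (a, b) :: ((l1 ++ l2) ++ P) := fun q => hperm.mem_iff
          simp only [this]
        have hzone : ∀ v j, j ∈ zone d (New ++ P) v ↔
            j ∈ zone d ((a, b) :: ((l1 ++ l2) ++ P)) v := by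
          intro v j
          rw [mem_zone hd, mem_zone hd]
          unfold AdjN
          have : ∀ q, q ∈ New ++ P ↔ q ∈ (a, b) :: ((l1 ++ l2) ++ P) := fun q => hperm.mem_iff
          simp only [this]
        rw [Finset.mem_union, Finset.mem_union, hzone, hzone, hzone, hzone] at hqZ
        push Not at hqZ
        have hVa := hV.perm hperm
        rw [hfree] at hx hy
        have hsw := switch hd hVa hx hy hxy hqZ.1.1 hqZ.2.2 hqZ.2.1
        have hV' : Valid d n (((y, b) :: (x, a) :: (l1 ++ l2)) ++ P) := by
          simpa using hsw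
        have hc' := card_freeF hV'
        have hlen' : (((y, b) :: (x, a) :: (l1 ++ l2)) ++ P).length = (New ++ P).length + 1 := by
          rw [hl]; simp; omega
        refine ih (k - 2) (by omega) _ hV' ?_
        omega

/-- a valid partial matching with at least `thr d - 1` free stubs has a completion -/
theorem exists_completion {d n : ℕ} (hd : 0 < d) (hev : Even (n * d)) {P : List (ℕ × ℕ)}
    (hV : Valid d n P) (hf : 5 * ((d + 1) * d) < (freeF d n P).card) :
    ∃ New, Valid d n (New ++ P) ∧ 2 * (New ++ P).length = n * d :=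
  exists_completion_aux hd hev hf _ [] (by simpa using hV) rfl

end Crest.Agent.R062.EndComplete
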