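import Crest.Agent.R062.EndAlg
import Crest.Agent.Lib.PT.ListFns2
import Crest.Agent.Lib.PT.Arith

/-!
Row 62: the finishing algorithm is polynomial time.
-/

set_option autoImplicit false

namespace Crest.Agent.R062.EndPT

open Crest.Agent.R062.Pairs Crest.Agent.R062.EndComplete Crest.Agent.R062.EndAlg
open Crest.Agent.Lib.PT

section

variable {γ : Type} [PTCode γ]

theorem pt_good (d : ℕ) {n : γ → ℕ} {p : γ → ℕ × ℕ} (hn : PTU n) (hp : PTF p) :
    PTPred (fun c => Good d (n c) (p c)) := by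
  unfold Good
  have h1 : PTF (fun c => n c * d) := (PTU.mul hn (PTU.const d)).toPTF
  have h2 : PTF (fun c => (p c).1) := by fun_prop
  have h3 : PTF (fun c => (p c).2) := by fun_prop
  exact (PTPred.natLt h2 h1).and ((PTPred.natLt h3 h1).and
    (PTPred.natEq (PTF.natDiv h2 (PTF.const d)) (PTF.natDiv h3 (PTF.const d))).not)

theorem pt_compat (d : ℕ) {p q : γ → ℕ × ℕ} (hp : PTF p) (hq : PTF q) :
    PTPred (fun c => Compat d (p c) (q c)) := by
  unfold Compat
  have h2 : PTF (fun c => (p c).1) := by fun_prop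
  have h3 : PTF (fun c => (p c).2) := by fun_prop
  have h4 : PTF (fun c => (q c).1) := by fun_prop
  have h5 : PTF (fun c => (q c).2) := by fun_prop
  have g2 := PTF.natDiv h2 (PTF.const d)
  have g3 := PTF.natDiv h3 (PTF.const d)
  have g4 := PTF.natDiv h4 (PTF.const d)
  have g5 := PTF.natDiv h5 (PTF.const d)
  refine PTPred.and ?_ (PTPred.and ?_ ?_)
  · exact (PTPred.natEq h2 h4).not.and ((PTPred.natEq h2 h5).not.and
      ((PTPred.natEq h3 h4).not.and (PTPred.natEq h3 h5).not))
  · exact ((PTPred.natEq g2 g4).and (PTPred.natEq g3 g5)).not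
  · exact ((PTPred.natEq g2 g5).and (PTPred.natEq g3 g4)).not

theorem pt_adm (d : ℕ) {n : γ → ℕ} {P : γ → List (ℕ × ℕ)} {p : γ → ℕ × ℕ} (hn : PTU n)
    (hP : PTF P) (hp : PTF p) : PTPred (fun c => Adm d (n c) (P c) (p c)) := by
  unfold Adm
  refine (pt_good d hn hp).and (PTPred.forall_mem hP ?_)
  exact pt_compat d (hp.comp PTF.fst) PTF.snd

theorem pt_allPairs {M : γ → ℕ} (hM : PTU M) : PTF (fun c => allPairs (M c)) := by
  unfold allPairs
  refine PTF.flatMap (PTF.range hM) ?_
  dsimp only [PTF₂]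
  refine PTF.map (PTF.range (hM.comp PTF.fst)) ?_
  dsimp only [PTF₂]
  fun_prop

theorem pt_step1 (d : ℕ) {n : γ → ℕ} {P : γ → List (ℕ × ℕ)} (hn : PTU n) (hP : PTF P) :
    PTF (fun c => step1 d (n c) (P c)) := by
  unfold step1
  have h1 : PTF (fun c => (allPairs (n c * d)).find? (fun p => decide (Adm d (n c) (P c) p))) := by
    refine PTF.find? (pt_allPairs (PTU.mul hn (PTU.const d)))
      (p := fun c p => decide (Adm d (n c) (P c) p)) ?_
    dsimp only [PTF₂]
    exact (pt_adm d (hn.comp PTF.fst) (hP.comp PTF.fst) PTF.snd).toPTF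
  refine (PTF.optionCasesOn h1 hP (g := fun c p => p :: P c) (by
    dsimp only [PTF₂]; fun_prop)).of_eq (fun c => ?_)
  rcases (allPairs (n c * d)).find? (fun p => decide (Adm d (n c) (P c) p)) with _ | p <;> rfl

theorem pt_stepA (d : ℕ) {n : γ → ℕ} {P : γ → List (ℕ × ℕ)} (hn : PTU n) (hP : PTF P) :
    PTF (fun c => stepA d (n c) (P c)) := by
  unfold stepA
  refine PTF.ite ?_ (pt_step1 d hn hP) hP
  exact PTU.lt (PTU.add (PTU.mul (PTU.const 2) (PTU.length hP)) (PTU.const _))
    (PTU.mul hn (PTU.const d))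

theorem sz_stepA_le (d n : ℕ) (P : List (ℕ × ℕ)) :
    sz (stepA d n P) ≤ sz P + (6 * (n * d) + 3) := by
  unfold stepA
  split_ifs
  · unfold step1
    rcases h : (allPairs (n * d)).find? (fun p => decide (Adm d n P p)) with _ | ⟨x, y⟩
    · simp
    · have := List.mem_of_find?_eq_some h
      rw [mem_allPairs] at this
      have h1 := sz_nat_le x
      have h2 := sz_nat_le y
      simp only [sz_cons, sz_prod]
      omega
  · omega

theorem pt_stageA (d : ℕ) {n : γ → ℕ} {P : γ → List (ℕ × ℕ)} (hn : PTU n) (hP : PTF P) :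
    PTF (fun c => (stepA d (n c))^[n c * d] (P c)) := by
  have hnd : PTU (fun c => n c * d) := PTU.mul hn (PTU.const d)
  refine PTF.iterate_add (f := fun c P => stepA d (n c) P) hnd ?_ hP
    (G := fun c => 6 * (n c * d) + 3) ?_ (fun c P => sz_stepA_le d (n c) P)
  · dsimp only [PTF₂]
    exact pt_stepA d (hn.comp PTF.fst) PTF.snd
  · have := hnd.pb
    exact PB.add (PB.mul (PB.const 6) this) (PB.const 3)

theorem pt_expand (d : ℕ) {n : γ → ℕ} {L : γ → List (List (ℕ × ℕ))} (hn : PTU n) (hL : PTF L) :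
    PTF (fun c => expand d (n c) (L c)) := by
  unfold expand
  refine PTF.flatMap hL ?_
  dsimp only [PTF₂]
  have hn' : PTU (fun a : γ × List (ℕ × ℕ) => n a.1) := hn.comp PTF.fst
  have hQ : PTF (fun a : γ × List (ℕ × ℕ) => a.2) := PTF.snd
  refine PTF.ite (PTU.eq (PTU.mul (PTU.const 2) (PTU.length hQ)) (PTU.mul hn' (PTU.const d))) ?_ ?_
  · fun_prop
  · refine PTF.map (PTF.filter (pt_allPairs (PTU.mul hn' (PTU.const d))) ?_) ?_
    · dsimp only [PTF₂]
      exact (pt_adm d (hn'.comp PTF.fst) (hQ.comp PTF.fst) PTF.snd).toPTF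
    · dsimp only [PTF₂]
      fun_prop

theorem pt_iter_expand (d : ℕ) {n : γ → ℕ} {L : γ → List (List (ℕ × ℕ))} (hn : PTU n)
    (hL : PTF L) (k : ℕ) : PTF (fun c => (expand d (n c))^[k] (L c)) := by
  induction k with
  | zero => simpa using hL
  | succ k ih =>
    simp only [Function.iterate_succ_apply']
    exact pt_expand d hn ih

/-- the finishing algorithm is polynomial time -/
theorem pt_finish (d : ℕ) {n : γ → ℕ} {P : γ → List (ℕ × ℕ)} (hn : PTU n) (hP : PTF P) :
    PTF (fun c => finish d (n c) (P c)) := by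
  unfold finish
  refine PTF.optionGetD (PTF.find? (pt_iter_expand d hn ?_ _) ?_) (PTF.const _)
  · have := pt_stageA d hn hP
    fun_prop
  · dsimp only [PTF₂]
    have hQ : PTF (fun a : γ × List (ℕ × ℕ) => a.2) := PTF.snd
    exact (PTU.eq (PTU.mul (PTU.const 2) (PTU.length hQ))
      (PTU.mul (hn.comp PTF.fst) (PTU.const d))).toPTF

end

end Crest.Agent.R062.EndPT
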