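import Crest.Agent.R062.Out
import Crest.Agent.R62.Bridge

/-!
Row 62: glue of the combinatorial output layer (`R062.Out`) with the exact linear-algebra layer
(`R62.Bridge`).
-/

set_option autoImplicit false

namespace Crest.Agent.R062.Glue

open Crest.Agent.R062.Pairs Crest.Agent.R062.EndComplete Crest.Agent.R062.EndAlg
open Crest.Agent.R062.Out
open Crest.Agent.R62
open Crest.Agent.R62.Bridge
open Crest.Agent.Lib.PT
open Classical
open scoped Matrix

theorem mat_of_valid {d n : ℕ} {P : List (ℕ × ℕ)} (h : Valid d n P) : Mat n d P := by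
  induction P with
  | nil => trivial
  | cons p P ih =>
    obtain ⟨x, y⟩ := p
    rw [valid_cons] at h
    obtain ⟨h1, h2⟩ := h
    have h3 := adm_iff.1 h1
    rw [mem_freeF, mem_freeF, mem_stubs, mem_stubs] at h3
    exact ⟨ih h2, h3.1.1, h3.2.1.1, h3.1.2, h3.2.1.2, h3.2.2.1⟩

theorem vtx_val {n d : ℕ} [NeZero n] {x : ℕ} (hx : x < n * d) : ((vtx n d x : Fin n) : ℕ) = x / d := by
  have h1 : x / d < n := Nat.div_lt_of_lt_mul (by rwa [mul_comm] at hx)
  simp [vtx, Nat.mod_eq_of_lt h1]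

theorem edgeM_apply {n : ℕ} (v w i j : Fin n) :
    Stub.edgeM v w i j = (if v = i then (1 : ℝ) else 0) * (if w = j then 1 else 0)
      + (if w = i then 1 else 0) * (if v = j then 1 else 0) := by
  unfold Stub.edgeM
  rw [Matrix.add_apply, Matrix.vecMulVec_apply, Matrix.vecMulVec_apply]
  simp only [Pi.single_apply, eq_comm]

theorem edge_case (a b c d : ℕ) (hab : a ≠ b) :
    ((if a = c then (1 : ℝ) else 0) * (if b = d then 1 else 0)
      + (if b = c then 1 else 0) * (if a = d then 1 else 0)) =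
      if (a = c ∧ b = d) ∨ (a = d ∧ b = c) then (1 : ℝ) else 0 := by
  by_cases h1 : a = c
  · have h3 : ¬ b = c := fun h => hab (h1.trans h.symm)
    by_cases h2 : b = d
    · rw [if_pos h1, if_pos h2, if_neg h3, if_pos (Or.inl ⟨h1, h2⟩)]; norm_num
    · have h4 : ¬ ((a = c ∧ b = d) ∨ (a = d ∧ b = c)) := fun h => h.elim (fun h => h2 h.2)
        (fun h => h3 h.2)
      rw [if_pos h1, if_neg h2, if_neg h3, if_neg h4]; norm_num
  · by_cases h2 : b = c
    · by_cases h3 : a = d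
      · rw [if_neg h1, if_pos h2, if_pos h3, if_pos (Or.inr ⟨h3, h2⟩)]; norm_num
      · have h4 : ¬ ((a = c ∧ b = d) ∨ (a = d ∧ b = c)) := fun h => h.elim (fun h => h1 h.1)
          (fun h => h3 h.1)
        rw [if_neg h1, if_pos h2, if_neg h3, if_neg h4]; norm_num
    · have h4 : ¬ ((a = c ∧ b = d) ∨ (a = d ∧ b = c)) := fun h => h.elim (fun h => h1 h.1)
          (fun h => h2 h.2)
      rw [if_neg h1, if_neg h2, if_neg h4]; norm_num

theorem runA_apply {d n : ℕ} [NeZero n] {P : List (ℕ × ℕ)} (h : Valid d n P) :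
    ∀ i j : Fin n, Stub.runA (mapL n d P) i j = if AdjN d P i j then 1 else 0 := by
  induction P with
  | nil =>
    intro i j
    have : ¬ AdjN d [] i j := by rintro ⟨q, hq, _⟩; exact absurd hq (by simp)
    rw [if_neg this]
    rfl
  | cons p P ih =>
    obtain ⟨x, y⟩ := p
    intro i j
    have hV := (valid_cons.1 h).2
    have hA := (valid_cons.1 h).1
    have h3 := adm_iff.1 hA
    rw [mem_freeF, mem_freeF] at h3
    obtain ⟨⟨hx, _⟩, ⟨hy, _⟩, hxy, hadj⟩ := h3
    have e : Stub.runA (mapL n d ((x, y) :: P)) =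
        Stub.runA (mapL n d P) + Stub.edgeM (vtx n d x) (vtx n d y) := rfl
    rw [e, Matrix.add_apply, ih hV i j, edgeM_apply]
    have hvx : ∀ k : Fin n, vtx n d x = k ↔ x / d = k := fun k => by
      rw [← vtx_val hx]; exact ⟨fun h => by rw [h], fun h => Fin.ext h⟩
    have hvy : ∀ k : Fin n, vtx n d y = k ↔ y / d = k := fun k => by
      rw [← vtx_val hy]; exact ⟨fun h => by rw [h], fun h => Fin.ext h⟩
    simp only [hvx, hvy]
    rw [edge_case _ _ _ _ hxy]
    have hcons : AdjN d ((x, y) :: P) i j ↔ AdjN d P i j ∨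
        ((x / d = i ∧ y / d = j) ∨ (x / d = j ∧ y / d = i)) := by
      unfold AdjN
      simp only [List.mem_cons, exists_eq_or_imp]
      exact or_comm
    by_cases c1 : AdjN d P i j
    · have c2 : ¬ ((x / d = i ∧ y / d = j) ∨ (x / d = j ∧ y / d = i)) := by
        rintro (⟨c3, c4⟩ | ⟨c3, c4⟩)
        · exact hadj (by rw [c3, c4]; exact c1)
        · exact hadj (by rw [c3, c4]; exact c1.symm)
      rw [if_pos c1, if_neg c2, if_pos (hcons.2 (Or.inl c1))]
      norm_num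
    · rw [if_neg c1]
      by_cases c2 : (x / d = i ∧ y / d = j) ∨ (x / d = j ∧ y / d = i)
      · rw [if_pos c2, if_pos (hcons.2 (Or.inr c2))]
        norm_num
      · rw [if_neg c2, if_neg (fun c => (hcons.1 c).elim c1 c2)]
        norm_num

theorem runA_eq {d n : ℕ} [NeZero n] (hd : 0 < d) {P : List (ℕ × ℕ)} (h : Valid d n P) :
    Stub.runA (mapL n d P) = (G d n P).adjMatrix ℝ := by
  ext i j
  rw [runA_apply h, SimpleGraph.adjMatrix_apply]
  by_cases hA : AdjN d P i j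
  · rw [if_pos hA, if_pos]
    exact ⟨fun e => (adjN_lt hd h hA).2.2 (congrArg Fin.val e), hA⟩
  · rw [if_neg hA, if_neg]
    exact fun h' => hA h'.2

/-- the analytic end condition: all determinants positive along `P`, and `Σ K² < 2` at the end -/
def EndGood (γ b : ℝ) (n d : ℕ) (P : List (ℕ × ℕ)) : Prop :=
  ∀ s : ℝ, s = 1 ∨ s = -1 → DelPos γ s ((1 - γ ^ 2) / (b - γ * d)) n d P ∧
    ∑ i ∈ Finset.range (n * d), ∑ j ∈ Finset.range (n * d),
      Kof γ s ((1 - γ ^ 2) / (b - γ * d)) n d P i j ^ 2 < 2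

theorem spec_of_endGood {d n : ℕ} (hd : 0 < d) {γ : ℝ} (hγ0 : 0 < γ) (hγ1 : γ < 1)
    (hb : 0 < 2 * Real.sqrt ((d : ℝ) - 1) - γ * d) {P Q : List (ℕ × ℕ)}
    (hG : EndGood γ (2 * Real.sqrt ((d : ℝ) - 1)) n d P) (hPQ : P <:+ Q) (hQ : Valid d n Q)
    (hfull : 2 * Q.length = n * d) (hlen : 2 * P.length < n * d) : Spec d n Q := by
  intro f hf0 hf
  have hn : 0 < n := by
    rcases Nat.eq_zero_or_pos n with h | h
    · rw [h] at hlen; omega
    · exact h
  have : NeZero n := ⟨hn.ne'⟩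
  obtain ⟨L2, rfl⟩ := hPQ
  have := spectral hd hγ0 hγ1 hb L2 P (mat_of_valid hQ) hfull hlen (fun s hs => (hG s hs).1)
    (fun s hs => (hG s hs).2) f hf hf0
  rw [runA_eq hd hQ] at this
  exact this

/-- **Reduction of S0084 to the analytic condition.** -/
theorem result_of_endGood (d : ℕ) (hd : 3 ≤ d) (sel : Un → List (ℕ × ℕ)) (hsel : PTF sel) (n₀ : ℕ)
    (h : ∀ n, n₀ ≤ n → Even n → Valid d n (sel ⟨n⟩) ∧
      2 * (sel ⟨n⟩).length + thr d ≤ n * d + 1 ∧
      ∃ γ : ℝ, 0 < γ ∧ γ < 1 ∧ 0 < 2 * Real.sqrt ((d : ℝ) - 1) - γ * d ∧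
        EndGood γ (2 * Real.sqrt ((d : ℝ) - 1)) n d (sel ⟨n⟩)) :
    ∃ n₀ : ℕ, ∃ F : List Bool → List Bool, Crest.Complexity.PolyTime F ∧
      ∀ n : ℕ, n₀ ≤ n → Even n →
        (Crest.CombinatoricsR.GraphCode.adjGraph n
            (F (Crest.CombinatoricsR.GraphCode.unary n))).IsRegularOfDegree d ∧
        ∀ x : Fin n → ℝ, ∑ i, x i = 0 → x ≠ 0 →
          |x ⬝ᵥ ((Crest.CombinatoricsR.GraphCode.adjGraph n
              (F (Crest.CombinatoricsR.GraphCode.unary n))).adjMatrix ℝ *ᵥ x)| <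
            2 * Real.sqrt ((d : ℝ) - 1) * (x ⬝ᵥ x) := by
  refine result_of d hd sel hsel n₀ fun n hn hev => ?_
  obtain ⟨h1, h2, γ, h3, h4, h5, h6⟩ := h n hn hev
  refine ⟨h1, h2, fun Q hPQ hQ hfull => ?_⟩
  refine spec_of_endGood (by omega) h3 h4 h5 h6 hPQ hQ hfull ?_
  have : 2 ≤ thr d := by unfold thr; omega
  omega

end Crest.Agent.R062.Glue
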