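import Crest.Agent.R062.MachRun

/-!
# R62: the machine, sizes of the states, the run is poly-time
-/

set_option autoImplicit false

namespace Crest.Agent.R062.Mach

open Crest.Agent.Lib.PT

theorem sz_rc (N : ℕ) (q : ℚ) : sz (rc N q) ≤ 5 * N + 10 := by
  rw [sz_rat]
  have h1 : (rc N q).num.natAbs.size ≤ 2 * N + 1 := by
    rw [Nat.size_le]
    refine (Crest.Agent.Lib.PT.Arith.natAbs_num_mkRat_le _ _).trans_lt ?_
    have h2 : (max (-((4 ^ N : ℕ) : ℤ)) (min ((4 ^ N : ℕ) : ℤ) ⌊q * ((2 ^ N : ℕ) : ℚ)⌋)).natAbs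
        ≤ 4 ^ N := by
      have h4 : ∀ (a : ℕ) (z : ℤ), (max (-(a : ℤ)) (min (a : ℤ) z)).natAbs ≤ a := by
        intro a z
        omega
      exact h4 _ _
    refine h2.trans_lt ?_
    have h3 : (4 : ℕ) ^ N = 2 ^ (2 * N) := by rw [pow_mul]; norm_num
    rw [h3]
    exact Nat.pow_lt_pow_right (by norm_num) (by omega)
  have h2 : (rc N q).den.size ≤ N + 1 := by
    rw [Nat.size_le]
    have h3 : (rc N q).den ≤ 2 ^ N := by
      unfold rc
      rw [Rat.den_mkRat]
      split_ifs with h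
      · exact Nat.one_le_two_pow
      · exact Nat.div_le_self _ _
    exact h3.trans_lt (Nat.pow_lt_pow_right (by norm_num) (by omega))
  omega

theorem sz_tab_le {M B : ℕ} {f : ℕ → ℕ → ℚ} (h : ∀ i j, sz (f i j) ≤ B) :
    sz (tab M f) ≤ M * (2 * (M * (2 * B + 1)) + 1) := by
  unfold tab
  refine (sz_list_le (m := M * (2 * B + 1)) ?_).trans ?_
  · intro a ha
    obtain ⟨i, _, rfl⟩ := List.mem_map.1 ha
    refine (sz_list_le (m := B) ?_).trans ?_
    · intro b hb
      obtain ⟨j, _, rfl⟩ := List.mem_map.1 hb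
      exact h i j
    · simp
  · simp

/-- bound on the size of a stored matrix -/
def szM (N M : ℕ) : ℕ := M * (2 * (M * (2 * (5 * N + 10) + 1)) + 1)

theorem sz_newK (N M : ℕ) (b : Bool) (A : LM) (x y : ℕ) : sz (newK N M b A x y) ≤ szM N M :=
  sz_tab_le (fun _ _ => sz_rc N _)

theorem sz_initK (P : Par) (d N n : ℕ) (b : Bool) : sz (initK P d N n b) ≤ szM N (n * d) :=
  sz_tab_le (fun _ _ => sz_rc N _)

/-- the invariant giving the size bound -/
def SzInv (d κ n : ℕ) (t : ℕ) (s : S) : Prop :=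
  s.1.length ≤ t ∧ (∀ p ∈ s.1, p.1 < n * d ∧ p.2 < n * d) ∧
    sz s.2.1 ≤ szM (bits κ n) (n * d) ∧ sz s.2.2 ≤ szM (bits κ n) (n * d)

theorem choice_mem {d κ c n : ℕ} {cs : List E} {s : S} {p : ℕ × ℕ}
    (h : choice d κ c n cs s = some p) : p.1 < n * d ∧ p.2 < n * d :=
  mem_cands.1 (List.mem_of_find?_eq_some h)

theorem szInv_init (P : Par) (d κ n : ℕ) : SzInv d κ n 0 (init P d κ n) :=
  ⟨le_rfl, by simp [init], sz_initK _ _ _ _ _, sz_initK _ _ _ _ _⟩

theorem szInv_step {d κ c n : ℕ} {cs : List E} {t : ℕ} {s : S} (h : SzInv d κ n t s) :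
    SzInv d κ n (t + 1) (step d κ c n cs s) := by
  unfold step
  rcases hc : choice d κ c n cs s with _ | p
  · exact ⟨h.1.trans (Nat.le_succ t), h.2⟩
  · refine ⟨?_, ?_, sz_newK _ _ _ _ _ _, sz_newK _ _ _ _ _ _⟩
    · simp only [List.length_cons]
      exact Nat.succ_le_succ h.1
    · intro q hq
      rcases List.mem_cons.1 hq with rfl | hq
      · exact choice_mem hc
      · exact h.2.1 q hq

theorem szInv_run (P : Par) (d κ c n : ℕ) (cs : List E) (t : ℕ) :
    SzInv d κ n t (run P d κ c n cs t) := by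
  unfold run
  induction t with
  | zero => exact szInv_init P d κ n
  | succ t ih =>
    rw [Function.iterate_succ_apply']
    exact szInv_step ih

theorem sz_of_szInv {d κ n t : ℕ} {s : S} (h : SzInv d κ n t s) :
    sz s ≤ 2 * (t * (2 * (3 * (n * d) + 1) + 1)) + 1 +
      (2 * szM (bits κ n) (n * d) + 1 + szM (bits κ n) (n * d)) := by
  obtain ⟨h1, h2, h3, h4⟩ := h
  have h5 : sz s.1 ≤ t * (2 * (3 * (n * d) + 1) + 1) := by
    refine (sz_list_le (m := 3 * (n * d) + 1) ?_).trans (Nat.mul_le_mul_right _ h1)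
    intro p hp
    obtain ⟨h6, h7⟩ := h2 p hp
    have h8 := sz_nat_le p.1
    have h9 := sz_nat_le p.2
    simp only [sz_prod]
    omega
  simp only [sz_prod]
  omega

theorem pb_szM {γ : Type} [PTCode γ] {N M : γ → ℕ} (hN : PTU N) (hM : PTU M) :
    PTU (fun c => szM (N c) (M c)) := by
  unfold szM
  exact PTU.mul hM (PTU.add (PTU.mul (PTU.const 2) (PTU.mul hM (PTU.add (PTU.mul (PTU.const 2)
    (PTU.add (PTU.mul (PTU.const 5) hN) (PTU.const 10))) (PTU.const 1)))) (PTU.const 1))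

theorem ptf_run {γ : Type} [PTCode γ] (P : Par) (d κ k : ℕ) (cs : List E) {n t : γ → ℕ}
    (hn : PTU n) (ht : PTU t) : PTF (fun c => run P d κ k (n c) cs (t c)) := by
  unfold run
  have hM : PTU (fun c => n c * d) := PTU.mul hn (PTU.const d)
  have hN := ptu_bits κ hn
  have hB := pb_szM hN hM
  have hn1 : PTU (fun q : γ × S => n q.1) := PTU.comp hn PTF.fst
  refine PTF.iterate' (f := fun c s => step d κ k (n c) cs s) ht
    (ptf_step d κ k cs (γ := γ × S) (n := fun q => n q.1) (s := fun q => q.2) hn1 PTF.snd)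
    (ptf_init P d κ hn) (B := fun c => 2 * (t c * (2 * (3 * (n c * d) + 1) + 1)) + 1 +
      (2 * szM (bits κ (n c)) (n c * d) + 1 + szM (bits κ (n c)) (n c * d))) ?_ ?_
  · refine PTU.pb ?_
    refine PTU.add (PTU.add (PTU.mul (PTU.const 2) (PTU.mul ht (PTU.add (PTU.mul (PTU.const 2)
      (PTU.add (PTU.mul (PTU.const 3) hM) (PTU.const 1))) (PTU.const 1)))) (PTU.const 1)) ?_
    exact PTU.add (PTU.add (PTU.mul (PTU.const 2) hB) (PTU.const 1)) hB
  · intro c i hi
    have h := sz_of_szInv (szInv_run P d κ k (n c) cs i)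
    unfold run at h
    refine h.trans ?_
    have := Nat.mul_le_mul_right (2 * (3 * (n c * d) + 1) + 1) hi
    omega

end Crest.Agent.R062.Mach
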