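import Crest.Agent.R062.MachErr
import Crest.Agent.R062.MachSize

/-!
# R62: the machine, correctness
-/

set_option autoImplicit false

namespace Crest.Agent.R062.Mach

open Crest.Agent.Lib.PT

/-! ### rounding -/

theorem rc_err {N : ℕ} {q : ℚ} (h : |q| ≤ 2 ^ N) : |rc N q - q| ≤ 1 / 2 ^ N := by
  have h2 : (0 : ℚ) < 2 ^ N := by positivity
  have h4 : (4 : ℚ) ^ N = 2 ^ N * 2 ^ N := by
    rw [← mul_pow]; norm_num
  obtain ⟨h5, h6⟩ := abs_le.1 h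
  have h7 : ⌊q * ((2 ^ N : ℕ) : ℚ)⌋ ≤ ((4 ^ N : ℕ) : ℤ) := by
    have : (⌊q * ((2 ^ N : ℕ) : ℚ)⌋ : ℚ) ≤ (((4 ^ N : ℕ) : ℤ) : ℚ) := by
      refine (Int.floor_le _).trans ?_
      push_cast
      rw [h4]
      exact mul_le_mul_of_nonneg_right h6 h2.le
    exact_mod_cast this
  have h8 : -((4 ^ N : ℕ) : ℤ) ≤ ⌊q * ((2 ^ N : ℕ) : ℚ)⌋ := by
    rw [Int.le_floor]
    push_cast
    rw [h4]
    nlinarith
  have h9 : rc N q = (⌊q * ((2 ^ N : ℕ) : ℚ)⌋ : ℚ) / 2 ^ N := by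
    unfold rc
    rw [min_eq_right h7, max_eq_right h8, Rat.mkRat_eq_div]
    push_cast
    rfl
  rw [h9]
  have h10 := Int.floor_le (q * ((2 ^ N : ℕ) : ℚ))
  have h11 := Int.lt_floor_add_one (q * ((2 ^ N : ℕ) : ℚ))
  have h12 : (⌊q * ((2 ^ N : ℕ) : ℚ)⌋ : ℚ) / 2 ^ N - q =
      ((⌊q * ((2 ^ N : ℕ) : ℚ)⌋ : ℚ) - q * 2 ^ N) / 2 ^ N := by
    field_simp
  rw [h12, abs_div, abs_of_pos h2]
  refine div_le_div_of_nonneg_right ?_ h2.le
  push_cast at h10 h11 ⊢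
  rw [abs_le]
  constructor <;> linarith

theorem rc_errR {N : ℕ} {q : ℚ} (h : |(q : ℝ)| ≤ 2 ^ N) : |(rc N q : ℝ) - q| ≤ 1 / 2 ^ N := by
  have h1 : |q| ≤ 2 ^ N := by exact_mod_cast h
  have h2 : ((|rc N q - q| : ℚ) : ℝ) ≤ ((1 / 2 ^ N : ℚ) : ℝ) := Rat.cast_le.2 (rc_err h1)
  push_cast at h2
  exact h2

/-! ### casts -/

theorem sg_cast (b : Bool) : ((sg b : ℚ) : ℝ) = sg b := by
  cases b <;> simp [sg]

theorem Del_cast (s : ℚ) (K : Mx ℚ) (x y : ℕ) :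
    ((Del s K x y : ℚ) : ℝ) = Del (s : ℝ) (fun i j => (K i j : ℝ)) x y := by
  unfold Del
  push_cast
  rfl

theorem upd_cast (s : ℚ) (K : Mx ℚ) (x y i j : ℕ) :
    ((upd s K x y i j : ℚ) : ℝ) = upd (s : ℝ) (fun i j => (K i j : ℝ)) x y i j := by
  unfold upd
  split_ifs
  · simp
  · rw [Rat.cast_add, Rat.cast_div, Del_cast]
    congr 2
    unfold updNum
    push_cast
    rfl

theorem K0_cast (g s m : ℚ) (n d i j : ℕ) :
    ((K0 g s m n d i j : ℚ) : ℝ) = K0 (g : ℝ) (s : ℝ) (m : ℝ) n d i j := by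
  unfold K0
  split_ifs <;> push_cast <;> rfl

theorem abs_div_nat_le (x : ℝ) (n : ℕ) : |x / (n : ℝ)| ≤ |x| := by
  rcases Nat.eq_zero_or_pos n with rfl | h
  · simp
  · rw [abs_div, Nat.abs_cast]
    have : (1 : ℝ) ≤ n := by exact_mod_cast h
    exact div_le_self (abs_nonneg x) this

theorem K0_bd {g s m : ℝ} (hg : |g| ≤ 1) (hs : |s| ≤ 1) (hm : |m| ≤ 1) (n d i j : ℕ) :
    |K0 g s m n d i j| ≤ 5 := by
  unfold K0
  split_ifs with h0 h1 h2 h2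
  all_goals try (rw [abs_zero]; norm_num)
  all_goals
    have e1 : |(g + s) / ((n : ℝ) * (d : ℝ))| ≤ 2 := by
      have := abs_div_nat_le (g + s) (n * d)
      push_cast at this
      refine this.trans ((abs_add_le _ _).trans (by linarith))
    have e2 : |m / (n : ℝ)| ≤ 1 := (abs_div_nat_le m n).trans hm
    rw [abs_le] at *
    constructor <;> linarith [hg.1, hg.2, hm.1, hm.2, e1.1, e1.2, e2.1, e2.2]

theorem K0_err {g m g' m' s ε : ℝ} (hg : |g' - g| ≤ ε) (hm : |m' - m| ≤ ε) (n d i j : ℕ) :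
    |K0 g' s m' n d i j - K0 g s m n d i j| ≤ 4 * ε := by
  have hε : 0 ≤ ε := (abs_nonneg _).trans hg
  unfold K0
  have e1 : |(g' - g) / ((n : ℝ) * (d : ℝ))| ≤ ε := by
    have := abs_div_nat_le (g' - g) (n * d)
    push_cast at this
    exact this.trans hg
  have e2 : |(m' - m) / (n : ℝ)| ≤ ε := (abs_div_nat_le _ n).trans hm
  have e3 : (g' + s) / ((n : ℝ) * (d : ℝ)) = (g + s) / ((n : ℝ) * (d : ℝ)) +
      (g' - g) / ((n : ℝ) * (d : ℝ)) := by ring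
  have e4 : m' / (n : ℝ) = m / (n : ℝ) + (m' - m) / (n : ℝ) := by ring
  rw [e3, e4]
  split_ifs with h0 h1 h2 h2
  all_goals rw [abs_le] at *
  all_goals constructor <;> linarith [hg.1, hg.2, hm.1, hm.2, e1.1, e1.2, e2.1, e2.2]

/-! ### one step -/

/-- the stored matrix of sign `b` -/
def S.K (s : S) (b : Bool) : LM := if b then s.2.1 else s.2.2

theorem newK_ap {ε R : ℝ} {K : Mx ℝ} {A : LM} {N M x y : ℕ} {b : Bool} (hx : x < M) (hy : y < M)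
    (hR : 1 ≤ R) (hε : 1 / 2 ^ N ≤ ε) (hs : ε * (60 * R ^ 2) ≤ 1 / 16)
    (hN : 4400000 * R ^ 5 ≤ 2 ^ N)
    (h : ∀ i < M, ∀ j < M, |(get A i j : ℝ) - K i j| ≤ ε)
    (hK : ∀ i < M, ∀ j < M, |K i j| ≤ R) (hD : 1 / 8 ≤ Del (sg b) K x y) :
    ∀ i < M, ∀ j < M, |upd (sg b) K x y i j| ≤ 2200000 * R ^ 5 ∧
      |(get (newK N M b A x y) i j : ℝ) - upd (sg b) K x y i j| ≤ ε * (2200001 * R ^ 5) := by
  intro i hi j hj
  have h2N : (0 : ℝ) < 1 / 2 ^ N := by positivity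
  have hε0 : 0 ≤ ε := h2N.le.trans hε
  have hR2 : 1 ≤ R ^ 2 := one_le_pow₀ hR
  have hR5 : 1 ≤ R ^ 5 := one_le_pow₀ hR
  have hε1 : ε ≤ 1 := by nlinarith
  have h0 : ∀ i < M, ∀ j < M, Ap ε R (K i j) (get A i j : ℝ) := by
    intro i hi j hj
    refine ⟨hK i hi j hj, (h i hi j hj).trans ?_⟩
    nlinarith
  obtain ⟨h3, h4⟩ := Ap.upd (b := b) (L := fun i j => (get A i j : ℝ)) hε0 hε1 hR hx hy h0 hD hs
    hi hj
  refine ⟨h3, ?_⟩
  have h5 : ((upd (sg b : ℚ) (get A) x y i j : ℚ) : ℝ) =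
      upd (sg b) (fun i j => (get A i j : ℝ)) x y i j := by
    rw [upd_cast, sg_cast]
  rw [← h5] at h4
  have h6 : |((upd (sg b : ℚ) (get A) x y i j : ℚ) : ℝ)| ≤ 2 ^ N := by
    have h7 : |((upd (sg b : ℚ) (get A) x y i j : ℚ) : ℝ)| ≤
        |upd (sg b) K x y i j| + ε * (2200000 * R ^ 5) := by
      have e : ((upd (sg b : ℚ) (get A) x y i j : ℚ) : ℝ) = upd (sg b) K x y i j +
        (((upd (sg b : ℚ) (get A) x y i j : ℚ) : ℝ) - upd (sg b) K x y i j) := by ring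
      rw [e]
      refine (abs_add_le _ _).trans (add_le_add le_rfl ?_)
      simpa using h4
    nlinarith
  have h7 := rc_errR h6
  unfold newK
  rw [get_tab hi hj]
  have e : (rc N (upd (sg b) (get A) x y i j) : ℝ) - upd (sg b) K x y i j =
    ((rc N (upd (sg b) (get A) x y i j) : ℝ) - ((upd (sg b : ℚ) (get A) x y i j : ℚ) : ℝ)) +
    (((upd (sg b : ℚ) (get A) x y i j : ℚ) : ℝ) - upd (sg b) K x y i j) := by ring
  rw [e]
  refine (abs_add_le _ _).trans ?_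
  nlinarith

/-- robustness of an expression, as a predicate -/
def EAp (a : E) (k : ℕ) : Prop := ∀ (T ε : ℝ), 2 ≤ T → 0 ≤ ε → ε ≤ 1 → ∀ (m r : ℕ),
    ∀ (e e' : Env ℝ), e.M = e'.M → e.x = e'.x → e.y = e'.y → e.x < e.M → e.y < e.M →
    e.W = e'.W → e.c = e'.c → (e.M : ℝ) ≤ T ^ m → (∀ c : Cst, |e.c c| ≤ T ^ (m * c.deg)) →
    (∀ c : RC, Ap ε (T ^ c.deg) (e.r c) (e'.r c)) →
    (∀ nw b, ∀ i < e.M, ∀ j < e.M, Ap ε (T ^ r) (e.K nw b i j) (e'.K nw b i j)) →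
    ∀ i < e.M, ∀ j < e.M, Ap ε (T ^ (k * (m + r + 1))) (eval e a i j) (eval e' a i j)

theorem exists_EAp (a : E) : ∃ k, EAp a k := eval_ap a

theorem EAp.mono {a : E} {k k' : ℕ} (h : EAp a k) (hk : k ≤ k') : EAp a k' := by
  intro T ε hT h0 h1 m r e e' hM hx hy hxM hyM hW hc hm hcb hg hK i hi j hj
  exact (h T ε hT h0 h1 m r e e' hM hx hy hxM hyM hW hc hm hcb hg hK i hi j hj).mono h0
    (pow_le_pow_right₀ (by linarith) (Nat.mul_le_mul_right _ hk))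

theorem exists_EAp_list (cs : List E) : ∃ k, ∀ a ∈ cs, EAp a k := by
  induction cs with
  | nil => exact ⟨0, by simp⟩
  | cons a cs ih =>
    obtain ⟨k, hk⟩ := ih
    obtain ⟨k', hk'⟩ := exists_EAp a
    refine ⟨k + k', ?_⟩
    intro a' ha'
    rcases List.mem_cons.1 ha' with rfl | ha'
    · exact hk'.mono (by omega)
    · exact (hk a' ha').mono (by omega)

/-! ### the environment of the machine -/

section env

variable {P : Par} {d κ n : ℕ} {s : S} {p : ℕ × ℕ}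

/-- the machine environment, cast to the reals -/
noncomputable def envM (d κ n : ℕ) (s : S) (p : ℕ × ℕ) : Env ℝ := (mkEQ d κ n s p).env.cast

theorem envM_W : (envR P d n s.1 p).W = (envM d κ n s p).W := by
  funext nw i
  cases nw <;> rfl

theorem envM_K (nw b : Bool) (i j : ℕ) : (envM d κ n s p).K nw b i j =
    if nw then (get (newK (bits κ n) (n * d) b (s.K b) p.1 p.2) i j : ℝ)
      else (get (s.K b) i j : ℝ) := by
  cases nw <;> cases b <;> rfl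

theorem get_mkEQ (hx : p.1 < n * d) (hy : p.2 < n * d) (a : E) {i j : ℕ} (hi : i < n * d)
    (hj : j < n * d) :
    ((get (evalQ (mkEQ d κ n s p) a) i j : ℚ) : ℝ) = eval (envM d κ n s p) a i j := by
  rw [get_evalQ (mkEQ d κ n s p) hx hy a i hi j hj, eval_cast]
  rfl

end env

end Crest.Agent.R062.Mach
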