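import Mathlib
import Crest.Agent.Lib.PT.ArithRat
import Crest.Agent.Lib.PT.ListFns2
import Crest.Agent.R062.Pairs

/-!
# R62: the machine, definitions

The stub-matrix recursion, the constraint language and its (field-generic) semantics, and
`Spec`, the data the analysis has to provide.
-/

set_option autoImplicit false

namespace Crest.Agent.R062.Mach

open Crest.Agent.Lib.PT

/-- two-variable functions, used as matrices indexed by stubs -/
abbrev Mx (α : Type) := ℕ → ℕ → α

section Basic

variable {α : Type} [Field α]

/-- the sign attached to a boolean -/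
def sg (b : Bool) : α := if b then 1 else -1

/-- the determinant of a joining step -/
def Del (s : α) (K : Mx α) (x y : ℕ) : α := (1 - s * K x y) ^ 2 - K x x * K y y

/-- the numerator of the update -/
def updNum (s : α) (K : Mx α) (x y i j : ℕ) : α :=
  K y y * (K i x * K x j) + K x x * (K i y * K y j) +
    s * (1 - s * K x y) * (K i x * K y j + K i y * K x j)

/-- join the stubs `x`, `y`: Schur complement of `K - s (E_xy + E_yx)`, extended by zero -/
def upd (s : α) (K : Mx α) (x y : ℕ) : Mx α := fun i j =>
  if i = x ∨ i = y ∨ j = x ∨ j = y then 0 else K i j + updNum s K x y i j / Del s K x y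

/-- the initial stub matrix: `mu` on the diagonal blocks, minus `gam` on the diagonal, plus a
constant making the row sums `s` (when `mu = (1 - gam ^ 2) / (b - gam d)`) -/
def K0 (gam s mu : α) (n d : ℕ) : Mx α := fun i j =>
  if i < n * d ∧ j < n * d then
    (if i / d = j / d then mu else 0) - (if i = j then gam else 0) +
      (gam + s) / ((n : α) * (d : α)) - mu / (n : α)
  else 0

/-- the stub matrix after joining the pairs in `l` (newest first) -/
def Kof (gam s mu : α) (n d : ℕ) : List (ℕ × ℕ) → Mx α
  | [] => K0 gam s mu n d
  | p :: l => upd s (Kof gam s mu n d l) p.1 p.2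

end Basic

/-- stub `i` is not used by the pairs in `l` -/
def unused (l : List (ℕ × ℕ)) (i : ℕ) : Prop := ∀ p ∈ l, p.1 ≠ i ∧ p.2 ≠ i

instance (l : List (ℕ × ℕ)) (i : ℕ) : Decidable (unused l i) := by
  unfold unused; infer_instance

theorem unused_iff {l : List (ℕ × ℕ)} {i : ℕ} : unused l i ↔ i ∉ Pairs.stubs l := by
  rw [Pairs.mem_stubs]
  unfold unused
  push Not
  exact forall_congr' fun p => forall_congr' fun _ => and_congr ne_comm ne_comm

/-- real constants depending on `n`: poly-time computable to any precision, polynomially
bounded -/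
structure RC where
  /-- the value -/
  v : ℕ → ℝ
  /-- the approximation with `N` bits -/
  q : ℕ → ℕ → ℚ
  /-- poly-time -/
  ptf : PTF (fun p : Un × Un => q p.1.val p.2.val)
  /-- degree of the bound -/
  deg : ℕ
  /-- the bound -/
  bd : ∀ n, |v n| ≤ ((n : ℝ) + 2) ^ deg
  /-- quality of the approximation -/
  err : ∀ n N, |(q n N : ℝ) - v n| ≤ 1 / 2 ^ N

/-- rational constants available in the constraints: poly-time computable (unary arguments `n`
and number of pairs `t`), polynomially bounded -/
structure Cst where
  /-- the value -/
  f : ℕ → ℕ → ℚ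
  /-- poly-time -/
  ptf : PTF (fun p : Un × Un => f p.1.val p.2.val)
  /-- degree of the bound -/
  deg : ℕ
  /-- the bound -/
  bd : ∀ n t, |f n t| ≤ ((n : ℚ) + t + 2) ^ deg

/-- expressions for matrices; scalars are constant matrices -/
inductive E : Type
  /-- the stub matrix (before / after the step, sign) -/
  | K (new pos : Bool) : E
  /-- the identity on the free stubs (before / after the step) -/
  | idW (new : Bool) : E
  /-- the identity -/
  | one : E
  /-- a real constant depending on `n` -/
  | rc (c : RC) : E
  /-- a rational constant depending on `n` and the number of pairs `t` (before the step) -/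
  | cst (c : Cst) : E
  /-- sum -/
  | add (a b : E) : E
  /-- matrix product -/
  | mul (a b : E) : E
  /-- entrywise product -/
  | had (a b : E) : E
  /-- entrywise positive part -/
  | pos (a : E) : E
  /-- trace (a constant matrix) -/
  | tr (a : E) : E
  /-- one entry (a constant matrix): `false` selects `x`, `true` selects `y` -/
  | pick (p q : Bool) (a : E) : E

/-- the data an expression is evaluated on -/
structure Env (α : Type) where
  /-- size of the index set -/
  M : ℕ
  /-- first stub -/
  x : ℕ
  /-- second stub -/
  y : ℕ
  /-- the matrices -/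
  K : Bool → Bool → Mx α
  /-- the free stubs before/after -/
  W : Bool → ℕ → Bool
  /-- value of the real constants -/
  r : RC → α
  /-- value of the rational constants -/
  c : Cst → α

/-- semantics -/
def eval {α : Type} [Field α] [Max α] (e : Env α) : E → Mx α
  | .K nw b => e.K nw b
  | .idW nw => fun i j => if i = j ∧ e.W nw i = true then 1 else 0
  | .one => fun i j => if i = j then 1 else 0
  | .rc c => fun _ _ => e.r c
  | .cst c => fun _ _ => e.c c
  | .add a b => fun i j => eval e a i j + eval e b i j
  | .mul a b => fun i j => ∑ k ∈ Finset.range e.M, eval e a i k * eval e b k j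
  | .had a b => fun i j => eval e a i j * eval e b i j
  | .pos a => fun i j => max (eval e a i j) 0
  | .tr a => fun _ _ => ∑ k ∈ Finset.range e.M, eval e a k k
  | .pick p q a => fun _ _ => eval e a (if p then e.y else e.x) (if q then e.y else e.x)

/-- the parameters of the process -/
structure Par where
  /-- `gam` -/
  gam : RC
  /-- `mu` -/
  mu : RC
  /-- bound -/
  gam_le : ∀ n, |gam.v n| ≤ 1
  /-- bound -/
  mu_le : ∀ n, |mu.v n| ≤ 1

/-- the real process -/
noncomputable def Par.K (P : Par) (d n : ℕ) (b : Bool) (l : List (ℕ × ℕ)) : Mx ℝ :=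
  Kof (P.gam.v n) (sg b) (P.mu.v n) n d l

/-- the environment of the real process when the pairs `l` are joined and `p` is proposed -/
noncomputable def envR (P : Par) (d n : ℕ) (l : List (ℕ × ℕ)) (p : ℕ × ℕ) : Env ℝ where
  M := n * d
  x := p.1
  y := p.2
  K := fun nw b => if nw then P.K d n b (p :: l) else P.K d n b l
  W := fun nw i => if nw then decide (unused (p :: l) i) else decide (unused l i)
  r := fun c => c.v n
  c := fun c => (c.f n l.length : ℝ)

/-- all constraints in `cs` hold with margin `η` at the proposal `p` -/
def Holds (P : Par) (d n : ℕ) (cs : List E) (η : ℝ) (l : List (ℕ × ℕ)) (p : ℕ × ℕ) : Prop :=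
  ∀ a ∈ cs, ∀ i < n * d, ∀ j < n * d, eval (envR P d n l p) a i j ≤ -η

/-- a legal list of pairs: every pair was admissible and satisfied the constraints -/
def Good (P : Par) (d n : ℕ) (cs : List E) : List (ℕ × ℕ) → Prop
  | [] => True
  | p :: l => Good P d n cs l ∧ Pairs.Adm d n l p ∧ Holds P d n cs 0 l p

theorem Good.valid {P : Par} {d n : ℕ} {cs : List E} {l : List (ℕ × ℕ)} (h : Good P d n cs l) :
    Pairs.Valid d n l := by
  induction l with
  | nil => exact Pairs.valid_nil d n
  | cons p l ih => exact Pairs.valid_cons.2 ⟨h.2.1, ih h.1⟩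

/-- What the analysis has to provide. The machine then produces, in polynomial time, for every
large even `n` a list `l` with `Good P d n cs l` and `l.length = T n`. -/
structure Spec (d : ℕ) where
  /-- the parameters -/
  P : Par
  /-- the constraints -/
  cs : List E
  /-- the number of pairs to choose -/
  T : ℕ → ℕ
  /-- poly-time -/
  T_ptf : PTF (fun n : Un => T n.val)
  /-- bound -/
  T_le : ∀ n, 2 * T n ≤ n * d
  /-- exponent of the margin and of the entry bound -/
  c : ℕ
  /-- threshold -/
  n0 : ℕ
  /-- there is always a next pair, with margin -/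
  step : ∀ n, n0 ≤ n → Even n → ∀ l, Good P d n cs l → l.length < T n →
    ∃ p, Pairs.Adm d n l p ∧ Holds P d n cs (1 / ((n : ℝ) + 2) ^ c) l p
  /-- the constraints bound the entries before the step -/
  bndK : ∀ n, n0 ≤ n → Even n → ∀ l, Good P d n cs l → l.length < T n → ∀ p,
    Pairs.Adm d n l p → Holds P d n cs 0 l p →
    ∀ b, ∀ i < n * d, ∀ j < n * d, |P.K d n b l i j| ≤ ((n : ℝ) + 2) ^ c
  /-- the constraints keep the determinants away from zero -/
  bndD : ∀ n, n0 ≤ n → Even n → ∀ l, Good P d n cs l → l.length < T n → ∀ p,
    Pairs.Adm d n l p → Holds P d n cs 0 l p →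
    ∀ b, 1 / 4 ≤ Del (sg b) (P.K d n b l) p.1 p.2

end Crest.Agent.R062.Mach
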