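import Crest.Agent.R062.MachDefs

/-!
# R62: the machine, error propagation
-/

set_option autoImplicit false

namespace Crest.Agent.R062.Mach

open Finset

/-- `b` approximates `a`, which is bounded by `B`, with relative error `ε` -/
def Ap (ε B a b : ℝ) : Prop := |a| ≤ B ∧ |b - a| ≤ ε * B

theorem Ap.mono {ε B B' a b : ℝ} (hε : 0 ≤ ε) (h : Ap ε B a b) (hB : B ≤ B') : Ap ε B' a b :=
  ⟨h.1.trans hB, h.2.trans (mul_le_mul_of_nonneg_left hB hε)⟩

theorem Ap.pos {ε B a b : ℝ} (h : Ap ε B a b) : 0 ≤ B := (abs_nonneg a).trans h.1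

theorem Ap.const {ε B a : ℝ} (hε : 0 ≤ ε) (h : |a| ≤ B) : Ap ε B a a :=
  ⟨h, by rw [sub_self, abs_zero]; exact mul_nonneg hε ((abs_nonneg a).trans h)⟩

theorem Ap.add {ε B B' a b a' b' : ℝ} (h : Ap ε B a b) (h' : Ap ε B' a' b') :
    Ap ε (B + B') (a + a') (b + b') := by
  refine ⟨(abs_add_le _ _).trans (add_le_add h.1 h'.1), ?_⟩
  have : b + b' - (a + a') = (b - a) + (b' - a') := by ring
  rw [this, mul_add]
  exact (abs_add_le _ _).trans (add_le_add h.2 h'.2)

theorem Ap.neg {ε B a b : ℝ} (h : Ap ε B a b) : Ap ε B (-a) (-b) := by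
  refine ⟨by rw [abs_neg]; exact h.1, ?_⟩
  have : -b - -a = -(b - a) := by ring
  rw [this, abs_neg]; exact h.2

theorem Ap.sub {ε B B' a b a' b' : ℝ} (h : Ap ε B a b) (h' : Ap ε B' a' b') :
    Ap ε (B + B') (a - a') (b - b') := by
  have := h.add h'.neg
  simpa [sub_eq_add_neg] using this

theorem Ap.mul {ε B B' a b a' b' : ℝ} (hε : 0 ≤ ε) (hε1 : ε ≤ 1) (h : Ap ε B a b)
    (h' : Ap ε B' a' b') : Ap ε (3 * (B * B')) (a * a') (b * b') := by
  have hB := h.pos
  have hB' := h'.pos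
  have hBB : 0 ≤ B * B' := mul_nonneg hB hB'
  constructor
  · rw [abs_mul]
    have := mul_le_mul h.1 h'.1 (abs_nonneg _) hB
    linarith
  · have e : b * b' - a * a' = (b - a) * (b' - a') + (b - a) * a' + a * (b' - a') := by ring
    rw [e]
    refine (abs_add_three _ _ _).trans ?_
    rw [abs_mul, abs_mul, abs_mul]
    have h1 : |b - a| * |b' - a'| ≤ ε * (B * B') := by
      have h1 := mul_le_mul h.2 h'.2 (abs_nonneg _) (mul_nonneg hε hB)
      have h2 : ε * B * (ε * B') = ε * (ε * (B * B')) := by ring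
      rw [h2] at h1
      refine h1.trans (mul_le_mul_of_nonneg_left ?_ hε)
      have := mul_le_mul_of_nonneg_right hε1 hBB
      linarith
    have h2 : |b - a| * |a'| ≤ ε * (B * B') := by
      have h1 := mul_le_mul h.2 h'.1 (abs_nonneg _) (mul_nonneg hε hB)
      rw [mul_assoc] at h1
      exact h1
    have h3 : |a| * |b' - a'| ≤ ε * (B * B') := by
      have h1 := mul_le_mul h.1 h'.2 (abs_nonneg _) hB
      have h2 : B * (ε * B') = ε * (B * B') := by ring
      rw [h2] at h1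
      exact h1
    linarith

theorem Ap.max_zero {ε B a b : ℝ} (h : Ap ε B a b) : Ap ε B (max a 0) (max b 0) := by
  constructor
  · rw [abs_of_nonneg (le_max_right _ _)]
    exact max_le ((le_abs_self a).trans h.1) h.pos
  · exact (abs_max_sub_max_le_abs b a 0).trans h.2

theorem Ap.sum {ε B : ℝ} {M : ℕ} {f g : ℕ → ℝ} (h : ∀ k < M, Ap ε B (f k) (g k)) :
    Ap ε (M * B) (∑ k ∈ range M, f k) (∑ k ∈ range M, g k) := by
  constructor
  · refine (Finset.abs_sum_le_sum_abs _ _).trans ?_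
    have := Finset.sum_le_card_nsmul (range M) (fun k => |f k|) B
      (fun k hk => (h k (Finset.mem_range.1 hk)).1)
    simpa using this
  · rw [← Finset.sum_sub_distrib]
    refine (Finset.abs_sum_le_sum_abs _ _).trans ?_
    have := Finset.sum_le_card_nsmul (range M) (fun k => |g k - f k|) (ε * B)
      (fun k hk => (h k (Finset.mem_range.1 hk)).2)
    simp only [Finset.card_range, nsmul_eq_mul] at this
    linarith

theorem abs_sg (b : Bool) : |(sg b : ℝ)| = 1 := by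
  cases b <;> simp [sg]

section upd

variable {ε R : ℝ} {K L : Mx ℝ} {x y : ℕ} {b : Bool}

theorem Ap.updNum (hε : 0 ≤ ε) (hε1 : ε ≤ 1) (hR : 1 ≤ R) {i j : ℕ}
    (hxx : Ap ε R (K x x) (L x x)) (hyy : Ap ε R (K y y) (L y y)) (hxy : Ap ε R (K x y) (L x y))
    (hix : Ap ε R (K i x) (L i x)) (hxj : Ap ε R (K x j) (L x j))
    (hiy : Ap ε R (K i y) (L i y)) (hyj : Ap ε R (K y j) (L y j)) :
    Ap ε (240 * R ^ 3) (updNum (sg b) K x y i j) (updNum (sg b) L x y i j) := by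
  unfold Mach.updNum
  have hs : Ap ε 1 (sg b : ℝ) (sg b) := Ap.const hε (abs_sg b).le
  have h1 : Ap ε 1 (1 : ℝ) 1 := Ap.const hε (by simp)
  have t1 := hyy.mul hε hε1 (hix.mul hε hε1 hxj)
  have t2 := hxx.mul hε hε1 (hiy.mul hε hε1 hyj)
  have t3 := h1.sub (hs.mul hε hε1 hxy)
  have t4 := hs.mul hε hε1 t3
  have t5 := (hix.mul hε hε1 hyj).add (hiy.mul hε hε1 hxj)
  have t6 := t4.mul hε hε1 t5
  refine ((t1.add t2).add t6).mono hε ?_
  have hR0 : 0 ≤ R := by linarith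
  have hR2 : 0 ≤ R ^ 2 := by positivity
  have hR3 : R ^ 2 ≤ R ^ 3 := by nlinarith
  nlinarith

theorem Ap.Del (hε : 0 ≤ ε) (hε1 : ε ≤ 1) (hR : 1 ≤ R)
    (hxx : Ap ε R (K x x) (L x x)) (hyy : Ap ε R (K y y) (L y y)) (hxy : Ap ε R (K x y) (L x y)) :
    Ap ε (60 * R ^ 2) (Del (sg b) K x y) (Del (sg b) L x y) := by
  unfold Mach.Del
  have hs : Ap ε 1 (sg b : ℝ) (sg b) := Ap.const hε (abs_sg b).le
  have h1 : Ap ε 1 (1 : ℝ) 1 := Ap.const hε (by simp)
  have t3 := h1.sub (hs.mul hε hε1 hxy)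
  have t4 := t3.mul hε hε1 t3
  have t5 := hxx.mul hε hε1 hyy
  have t6 := (t4.sub t5).mono hε (B' := 60 * R ^ 2) (by nlinarith)
  simpa only [pow_two] using t6

/-- quotients with denominator bounded away from zero -/
theorem Ap.div {B D a b p q : ℝ} (hε : 0 ≤ ε) (hD : 1 ≤ D) (h : Ap ε B a b) (h' : Ap ε D p q)
    (hp : 1 / 8 ≤ p) (hs : ε * D ≤ 1 / 16) : Ap ε (150 * (B * D)) (a / p) (b / q) := by
  have hB := h.pos
  have hBD : 0 ≤ B * D := mul_nonneg hB (by linarith)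
  have hq : 1 / 16 ≤ q := by
    have := (abs_le.1 h'.2).1
    linarith
  have hp0 : 0 < p := by linarith
  have hq0 : 0 < q := by linarith
  constructor
  · rw [abs_div, abs_of_pos hp0, div_le_iff₀ hp0]
    have h1 := h.1
    nlinarith
  · have e : b / q - a / p = (b - a) / q + a * (p - q) / (p * q) := by
      field_simp
      ring
    rw [e]
    refine (abs_add_le _ _).trans ?_
    have h1 : |(b - a) / q| ≤ 16 * (ε * (B * D)) := by
      rw [abs_div, abs_of_pos hq0, div_le_iff₀ hq0]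
      have h2 := h.2
      have h3 : ε * B ≤ ε * (B * D) := mul_le_mul_of_nonneg_left (by nlinarith) hε
      have h4 : 0 ≤ ε * (B * D) := mul_nonneg hε hBD
      nlinarith
    have h2 : |a * (p - q) / (p * q)| ≤ 128 * (ε * (B * D)) := by
      rw [abs_div, abs_mul, abs_of_pos (mul_pos hp0 hq0), div_le_iff₀ (mul_pos hp0 hq0)]
      have h3 : |a| * |p - q| ≤ B * (ε * D) := by
        rw [abs_sub_comm p q]
        exact mul_le_mul h.1 h'.2 (abs_nonneg _) hB
      have h4 : 1 / 128 ≤ p * q := by nlinarith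
      have h5 : 0 ≤ ε * (B * D) := mul_nonneg hε hBD
      nlinarith
    have h5 : 0 ≤ ε * (B * D) := mul_nonneg hε hBD
    linarith

theorem Ap.upd (hε : 0 ≤ ε) (hε1 : ε ≤ 1) (hR : 1 ≤ R) {M : ℕ} (hx : x < M) (hy : y < M)
    (h : ∀ i < M, ∀ j < M, Ap ε R (K i j) (L i j))
    (hD : 1 / 8 ≤ Mach.Del (sg b) K x y) (hs : ε * (60 * R ^ 2) ≤ 1 / 16)
    {i j : ℕ} (hi : i < M) (hj : j < M) :
    Ap ε (2200000 * R ^ 5) (upd (sg b) K x y i j) (upd (sg b) L x y i j) := by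
  unfold Mach.upd
  have hR0 : 0 ≤ R := by linarith
  have hR5 : R ≤ R ^ 5 := by
    have : (1 : ℝ) ≤ R ^ 4 := one_le_pow₀ hR
    nlinarith
  split_ifs with hc
  · exact Ap.const hε (by rw [abs_zero]; positivity)
  · have h1 := Ap.updNum (b := b) hε hε1 hR (h x hx x hx) (h y hy y hy) (h x hx y hy)
      (h i hi x hx) (h x hx j hj) (h i hi y hy) (h y hy j hj)
    have h2 := Ap.Del (b := b) hε hε1 hR (h x hx x hx) (h y hy y hy) (h x hx y hy)
    have h3 := h1.div hε (by nlinarith) h2 hD hs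
    refine ((h i hi j hj).add h3).mono hε ?_
    have : 150 * (240 * R ^ 3 * (60 * R ^ 2)) = 2160000 * R ^ 5 := by ring
    rw [this]
    linarith

end upd

/-- evaluation is robust -/
theorem eval_ap (a : E) : ∃ k : ℕ, ∀ (T ε : ℝ), 2 ≤ T → 0 ≤ ε → ε ≤ 1 → ∀ (m r : ℕ),
    ∀ (e e' : Env ℝ), e.M = e'.M → e.x = e'.x → e.y = e'.y → e.x < e.M → e.y < e.M →
    e.W = e'.W → e.c = e'.c → (e.M : ℝ) ≤ T ^ m → (∀ c : Cst, |e.c c| ≤ T ^ (m * c.deg)) →
    (∀ c : RC, Ap ε (T ^ c.deg) (e.r c) (e'.r c)) →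
    (∀ nw b, ∀ i < e.M, ∀ j < e.M, Ap ε (T ^ r) (e.K nw b i j) (e'.K nw b i j)) →
    ∀ i < e.M, ∀ j < e.M, Ap ε (T ^ (k * (m + r + 1))) (eval e a i j) (eval e' a i j) := by
  induction a with
  | K nw b =>
    refine ⟨1, fun T ε hT h0 h1 m r e e' hM hx hy hxM hyM hW hc hm hcb hg hK i hi j hj => ?_⟩
    exact (hK nw b i hi j hj).mono h0 (pow_le_pow_right₀ (by linarith) (by omega))
  | idW nw =>
    refine ⟨0, fun T ε hT h0 h1 m r e e' hM hx hy hxM hyM hW hc hm hcb hg hK i hi j hj => ?_⟩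
    simp only [eval, hW]
    refine Ap.const h0 ?_
    split_ifs <;> simp
  | one =>
    refine ⟨0, fun T ε hT h0 h1 m r e e' hM hx hy hxM hyM hW hc hm hcb hg hK i hi j hj => ?_⟩
    simp only [eval]
    refine Ap.const h0 ?_
    split_ifs <;> simp
  | rc c =>
    refine ⟨c.deg, fun T ε hT h0 h1 m r e e' hM hx hy hxM hyM hW hc hm hcb hg hK i hi j hj => ?_⟩
    refine (hg c).mono h0 (pow_le_pow_right₀ (by linarith) ?_)
    nlinarith
  | cst c =>
    refine ⟨c.deg, fun T ε hT h0 h1 m r e e' hM hx hy hxM hyM hW hc hm hcb hg hK i hi j hj => ?_⟩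
    simp only [eval, hc]
    refine Ap.const h0 ?_
    rw [← hc]
    refine (hcb c).trans (pow_le_pow_right₀ (by linarith) ?_)
    nlinarith
  | add a b iha ihb =>
    obtain ⟨ka, iha⟩ := iha
    obtain ⟨kb, ihb⟩ := ihb
    refine ⟨ka + kb + 1, fun T ε hT h0 h1 m r e e' hM hx hy hxM hyM hW hc hm hcb hg hK i hi j hj => ?_⟩
    have ha := iha T ε hT h0 h1 m r e e' hM hx hy hxM hyM hW hc hm hcb hg hK i hi j hj
    have hb := ihb T ε hT h0 h1 m r e e' hM hx hy hxM hyM hW hc hm hcb hg hK i hi j hj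
    refine (ha.add hb).mono h0 ?_
    have hT1 : (1 : ℝ) ≤ T := by linarith
    have e1 : T ^ (ka * (m + r + 1)) ≤ T ^ ((ka + kb) * (m + r + 1)) :=
      pow_le_pow_right₀ hT1 (Nat.mul_le_mul_right _ (by omega))
    have e2 : T ^ (kb * (m + r + 1)) ≤ T ^ ((ka + kb) * (m + r + 1)) :=
      pow_le_pow_right₀ hT1 (Nat.mul_le_mul_right _ (by omega))
    have e3 : T ^ ((ka + kb) * (m + r + 1)) * T ≤ T ^ ((ka + kb + 1) * (m + r + 1)) := by
      rw [← pow_succ]
      refine pow_le_pow_right₀ hT1 ?_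
      have : (ka + kb + 1) * (m + r + 1) = (ka + kb) * (m + r + 1) + (m + r + 1) := by ring
      omega
    have e4 : 0 ≤ T ^ ((ka + kb) * (m + r + 1)) := by positivity
    nlinarith
  | mul a b iha ihb =>
    obtain ⟨ka, iha⟩ := iha
    obtain ⟨kb, ihb⟩ := ihb
    refine ⟨ka + kb + 3, fun T ε hT h0 h1 m r e e' hM hx hy hxM hyM hW hc hm hcb hg hK i hi j hj => ?_⟩
    have ha := iha T ε hT h0 h1 m r e e' hM hx hy hxM hyM hW hc hm hcb hg hK
    have hb := ihb T ε hT h0 h1 m r e e' hM hx hy hxM hyM hW hc hm hcb hg hK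
    have h2 := Ap.sum (fun k hk => (ha i hi k hk).mul h0 h1 (hb k hk j hj))
    simp only [eval]
    rw [← hM]
    refine h2.mono h0 ?_
    have hT1 : (1 : ℝ) ≤ T := by linarith
    have e4 : 0 ≤ T ^ ((ka + kb) * (m + r + 1)) := by positivity
    have e5 : (3 : ℝ) ≤ T ^ 2 := by nlinarith
    calc (e.M : ℝ) * (3 * (T ^ (ka * (m + r + 1)) * T ^ (kb * (m + r + 1))))
        = (e.M : ℝ) * 3 * T ^ ((ka + kb) * (m + r + 1)) := by rw [add_mul, pow_add]; ring
      _ ≤ T ^ m * T ^ 2 * T ^ ((ka + kb) * (m + r + 1)) := by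
          refine mul_le_mul_of_nonneg_right ?_ e4
          exact mul_le_mul hm e5 (by norm_num) (by positivity)
      _ = T ^ (m + 2 + (ka + kb) * (m + r + 1)) := by rw [pow_add, pow_add]
      _ ≤ T ^ ((ka + kb + 3) * (m + r + 1)) := by
          refine pow_le_pow_right₀ hT1 ?_
          have : (ka + kb + 3) * (m + r + 1) = (ka + kb) * (m + r + 1) + 3 * (m + r + 1) := by
            ring
          omega
  | had a b iha ihb =>
    obtain ⟨ka, iha⟩ := iha
    obtain ⟨kb, ihb⟩ := ihb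
    refine ⟨ka + kb + 2, fun T ε hT h0 h1 m r e e' hM hx hy hxM hyM hW hc hm hcb hg hK i hi j hj => ?_⟩
    have ha := iha T ε hT h0 h1 m r e e' hM hx hy hxM hyM hW hc hm hcb hg hK i hi j hj
    have hb := ihb T ε hT h0 h1 m r e e' hM hx hy hxM hyM hW hc hm hcb hg hK i hi j hj
    refine (ha.mul h0 h1 hb).mono h0 ?_
    have hT1 : (1 : ℝ) ≤ T := by linarith
    have e4 : 0 ≤ T ^ ((ka + kb) * (m + r + 1)) := by positivity
    have e5 : (3 : ℝ) ≤ T ^ 2 := by nlinarith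
    calc 3 * (T ^ (ka * (m + r + 1)) * T ^ (kb * (m + r + 1)))
        = 3 * T ^ ((ka + kb) * (m + r + 1)) := by rw [add_mul, pow_add]
      _ ≤ T ^ 2 * T ^ ((ka + kb) * (m + r + 1)) := mul_le_mul_of_nonneg_right e5 e4
      _ = T ^ (2 + (ka + kb) * (m + r + 1)) := by rw [pow_add]
      _ ≤ T ^ ((ka + kb + 2) * (m + r + 1)) := by
          refine pow_le_pow_right₀ hT1 ?_
          have : (ka + kb + 2) * (m + r + 1) = (ka + kb) * (m + r + 1) + 2 * (m + r + 1) := by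
            ring
          omega
  | pos a iha =>
    obtain ⟨ka, iha⟩ := iha
    refine ⟨ka, fun T ε hT h0 h1 m r e e' hM hx hy hxM hyM hW hc hm hcb hg hK i hi j hj => ?_⟩
    exact (iha T ε hT h0 h1 m r e e' hM hx hy hxM hyM hW hc hm hcb hg hK i hi j hj).max_zero
  | tr a iha =>
    obtain ⟨ka, iha⟩ := iha
    refine ⟨ka + 1, fun T ε hT h0 h1 m r e e' hM hx hy hxM hyM hW hc hm hcb hg hK i hi j hj => ?_⟩
    have ha := iha T ε hT h0 h1 m r e e' hM hx hy hxM hyM hW hc hm hcb hg hK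
    have h2 := Ap.sum (fun k hk => ha k hk k hk)
    simp only [eval]
    rw [← hM]
    refine h2.mono h0 ?_
    have hT1 : (1 : ℝ) ≤ T := by linarith
    have e4 : 0 ≤ T ^ (ka * (m + r + 1)) := by positivity
    calc (e.M : ℝ) * T ^ (ka * (m + r + 1)) ≤ T ^ m * T ^ (ka * (m + r + 1)) :=
          mul_le_mul_of_nonneg_right hm e4
      _ = T ^ (m + ka * (m + r + 1)) := by rw [pow_add]
      _ ≤ T ^ ((ka + 1) * (m + r + 1)) := by
          refine pow_le_pow_right₀ hT1 ?_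
          have : (ka + 1) * (m + r + 1) = ka * (m + r + 1) + (m + r + 1) := by ring
          omega
  | pick p q a iha =>
    obtain ⟨ka, iha⟩ := iha
    refine ⟨ka, fun T ε hT h0 h1 m r e e' hM hx hy hxM hyM hW hc hm hcb hg hK i hi j hj => ?_⟩
    have ha := iha T ε hT h0 h1 m r e e' hM hx hy hxM hyM hW hc hm hcb hg hK
    simp only [eval]
    rw [← hx, ← hy]
    refine ha _ ?_ _ ?_
    · split_ifs <;> assumption
    · split_ifs <;> assumption

end Crest.Agent.R062.Mach
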