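import Crest.Agent.R062.MachPar

/-!
# R62: from a specification to the statement S0084
-/

set_option autoImplicit false

namespace Crest.Agent.R062.MachFinal

open Crest.Agent.R062.Mach
open scoped Matrix

open Classical in
/-- The statement S0084 for `d` from a specification with the parameters `parOf d hd δ` and the
end condition. -/
theorem final {d : ℕ} (hd : 3 ≤ d) (S : Spec d) (δ : Delta) (hP : S.P = parOf d hd δ) (n1 : ℕ)
    (hδ : ∀ n, n1 ≤ n → Even n → δ.f n < 1)
    (hT : ∀ n, n1 ≤ n → Even n → 2 * S.T n + EndComplete.thr d ≤ n * d + 1)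
    (hend : ∀ n, n1 ≤ n → Even n → ∀ l, Good S.P d n S.cs l → l.length = S.T n →
      ∀ b : Bool, ∑ i ∈ Finset.range (n * d), ∑ j ∈ Finset.range (n * d),
        S.P.K d n b l i j ^ 2 < 2) :
    ∃ n₀ : ℕ, ∃ F : List Bool → List Bool, Crest.Complexity.PolyTime F ∧
      ∀ n : ℕ, n₀ ≤ n → Even n →
        (Crest.CombinatoricsR.GraphCode.adjGraph n
            (F (Crest.CombinatoricsR.GraphCode.unary n))).IsRegularOfDegree d ∧
        ∀ x : Fin n → ℝ, ∑ i, x i = 0 → x ≠ 0 →
          |x ⬝ᵥ ((Crest.CombinatoricsR.GraphCode.adjGraph n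
              (F (Crest.CombinatoricsR.GraphCode.unary n))).adjMatrix ℝ *ᵥ x)| <
            2 * Real.sqrt ((d : ℝ) - 1) * (x ⬝ᵥ x) := by
  obtain ⟨sel, h1, h2⟩ := machine S (by omega)
  refine R62.Glue.glue hd S n1 ⟨S.n0, sel, h1, h2⟩ ?_ ?_ hT hend
  · intro n hn he
    rw [hP]
    exact parOf_ok hd δ n (hδ n hn he)
  · intro n hn he
    rw [hP]
    exact parOf_mu d hd δ n

end Crest.Agent.R062.MachFinal
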