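import Crest.Agent.R062.MachCor

/-!
# R62: the machine, main theorem
-/

set_option autoImplicit false

namespace Crest.Agent.R062.Mach

open Crest.Agent.Lib.PT

/-! ### numerical estimates -/

/-- error factor of one step -/
noncomputable def Afac (c n : ℕ) : ℝ := 2200001 * (((n : ℝ) + 2) ^ c) ^ 5

/-- error after `t` steps -/
noncomputable def er (κ c n t : ℕ) : ℝ := 5 * Afac c n ^ t / 2 ^ (bits κ n)

theorem two_le_T (n : ℕ) : (2 : ℝ) ≤ (n : ℝ) + 2 := by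
  have : (0 : ℝ) ≤ n := Nat.cast_nonneg n
  linarith

theorem one_le_R (c n : ℕ) : (1 : ℝ) ≤ ((n : ℝ) + 2) ^ c :=
  one_le_pow₀ (by linarith [two_le_T n])

theorem one_le_Afac (c n : ℕ) : 1 ≤ Afac c n := by
  unfold Afac
  have : (1 : ℝ) ≤ (((n : ℝ) + 2) ^ c) ^ 5 := one_le_pow₀ (one_le_R c n)
  linarith

theorem er_pos (κ c n t : ℕ) : 0 < er κ c n t := by
  unfold er
  have := one_le_Afac c n
  positivity

theorem er_succ (κ c n t : ℕ) : er κ c n (t + 1) = er κ c n t * Afac c n := by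
  unfold er
  rw [pow_succ]; ring

theorem er_le_succ (κ c n t : ℕ) : er κ c n t ≤ er κ c n (t + 1) := by
  rw [er_succ]
  have := one_le_Afac c n
  nlinarith [er_pos κ c n t]

theorem le_er (κ c n t : ℕ) : 1 / 2 ^ (bits κ n) ≤ er κ c n t := by
  unfold er
  have h : 1 ≤ Afac c n ^ t := one_le_pow₀ (one_le_Afac c n)
  refine div_le_div_of_nonneg_right ?_ (by positivity)
  linarith

theorem Afac_le (c n : ℕ) : Afac c n ≤ ((n : ℝ) + 2) ^ (22 + 5 * c) := by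
  unfold Afac
  have h1 : (2 : ℝ) ^ 22 ≤ ((n : ℝ) + 2) ^ 22 := pow_le_pow_left₀ (by norm_num) (two_le_T n) 22
  rw [pow_add, ← pow_mul, mul_comm c 5]
  refine mul_le_mul_of_nonneg_right ?_ (by positivity)
  norm_num at h1 ⊢
  linarith

theorem pow_le_two_pow (n e : ℕ) : ((n : ℝ) + 2) ^ e ≤ 2 ^ ((n + 2) * e) := by
  rw [pow_mul]
  refine pow_le_pow_left₀ (by positivity) ?_ e
  have : n + 2 ≤ 2 ^ (n + 2) := Nat.lt_two_pow_self.le
  exact_mod_cast this

/-- exponents fit into the number of bits -/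
theorem pow_le_bits {κ n e : ℕ} (h : e ≤ κ * (n + 2)) :
    ((n : ℝ) + 2) ^ e ≤ 2 ^ (bits κ n) := by
  refine (pow_le_two_pow n e).trans (pow_le_pow_right₀ (by norm_num) ?_)
  unfold bits
  calc (n + 2) * e ≤ (n + 2) * (κ * (n + 2)) := Nat.mul_le_mul_left _ h
    _ = κ * (n + 2) ^ 2 := by ring

theorem er_le {κ c n d t G : ℕ} (hd : 1 ≤ d) (ht : 2 * t ≤ n * d)
    (hκ : (22 + 5 * c) * d + G + 3 ≤ κ) : er κ c n (t + 1) ≤ 1 / ((n : ℝ) + 2) ^ G := by
  have hT := two_le_T n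
  have hG : (0 : ℝ) < ((n : ℝ) + 2) ^ G := by positivity
  unfold er
  rw [div_le_div_iff₀ (by positivity) hG, one_mul]
  have h1 : Afac c n ^ (t + 1) ≤ ((n : ℝ) + 2) ^ ((22 + 5 * c) * (t + 1)) := by
    rw [pow_mul]
    exact pow_le_pow_left₀ (by linarith [one_le_Afac c n]) (Afac_le c n) _
  have h2 : (5 : ℝ) ≤ ((n : ℝ) + 2) ^ 3 := by
    have : (2 : ℝ) ^ 3 ≤ ((n : ℝ) + 2) ^ 3 := pow_le_pow_left₀ (by norm_num) hT 3
    norm_num at this ⊢
    linarith
  calc 5 * Afac c n ^ (t + 1) * ((n : ℝ) + 2) ^ G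
      ≤ ((n : ℝ) + 2) ^ 3 * ((n : ℝ) + 2) ^ ((22 + 5 * c) * (t + 1)) * ((n : ℝ) + 2) ^ G := by
        refine mul_le_mul_of_nonneg_right ?_ hG.le
        exact mul_le_mul h2 h1 (by have := one_le_Afac c n; positivity) (by positivity)
    _ = ((n : ℝ) + 2) ^ (3 + (22 + 5 * c) * (t + 1) + G) := by rw [pow_add, pow_add]
    _ ≤ 2 ^ (bits κ n) := by
        apply pow_le_bits
        have e1 : t + 1 ≤ d * (n + 2) := by nlinarith
        have e2 : (22 + 5 * c) * (t + 1) ≤ (22 + 5 * c) * (d * (n + 2)) :=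
          Nat.mul_le_mul_left _ e1
        have e3 : ((22 + 5 * c) * d + G + 3) * (n + 2) ≤ κ * (n + 2) :=
          Nat.mul_le_mul_right _ hκ
        nlinarith

theorem size_le (n d : ℕ) : ((n : ℝ) + n * d + 2) ≤ ((n : ℝ) + 2) ^ (d + 2) := by
  have h0 : d + 1 ≤ 2 ^ d := Nat.lt_two_pow_self
  have h1 : ((d : ℝ) + 1) ≤ 2 ^ d := by exact_mod_cast h0
  have h2 : (2 : ℝ) ^ d ≤ ((n : ℝ) + 2) ^ d := pow_le_pow_left₀ (by norm_num) (two_le_T n) d
  have h3 : (0 : ℝ) ≤ n := Nat.cast_nonneg n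
  have h4 : (0 : ℝ) ≤ d := Nat.cast_nonneg d
  have h5 := two_le_T n
  calc ((n : ℝ) + n * d + 2) ≤ ((n : ℝ) + 2) * ((d : ℝ) + 1) := by nlinarith
    _ ≤ ((n : ℝ) + 2) * ((n : ℝ) + 2) ^ d :=
        mul_le_mul_of_nonneg_left (h1.trans h2) (by linarith)
    _ = ((n : ℝ) + 2) ^ (d + 1) := by rw [pow_succ]; ring
    _ ≤ ((n : ℝ) + 2) ^ (d + 2) := pow_le_pow_right₀ (by linarith) (by omega)

/-! ### invariants -/

/-- what is true after `t` steps -/
structure Inv (P : Par) (d κ c n : ℕ) (cs : List E) (t : ℕ) (s : S) : Prop where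
  len : s.1.length = t
  good : Good P d n cs s.1
  err : ∀ b, ∀ i < n * d, ∀ j < n * d,
    |(get (s.K b) i j : ℝ) - P.K d n b s.1 i j| ≤ er κ c n t

/-- the numerical hypotheses at step `t` -/
structure Num (κ c n d t G : ℕ) : Prop where
  small : er κ c n (t + 1) ≤ 1 / ((n : ℝ) + 2) ^ G
  big : 4400000 * (((n : ℝ) + 2) ^ c) ^ 5 ≤ 2 ^ (bits κ n)
  ht : 2 * t ≤ n * d

section step

variable {P : Par} {d κ c n k t : ℕ} {cs : List E} {s : S} {p : ℕ × ℕ}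

theorem small60 {G : ℕ} (hN : Num κ c n d t G) (hG : 2 * c + 10 ≤ G) :
    er κ c n t * (60 * (((n : ℝ) + 2) ^ c) ^ 2) ≤ 1 / 16 := by
  have h1 := (er_le_succ κ c n t).trans hN.small
  have hT := two_le_T n
  have h2 : (960 : ℝ) ≤ ((n : ℝ) + 2) ^ 10 := by
    have : (2 : ℝ) ^ 10 ≤ ((n : ℝ) + 2) ^ 10 := pow_le_pow_left₀ (by norm_num) hT 10
    norm_num at this ⊢
    linarith
  have h3 : 960 * (((n : ℝ) + 2) ^ c) ^ 2 ≤ ((n : ℝ) + 2) ^ G := by
    calc 960 * (((n : ℝ) + 2) ^ c) ^ 2 ≤ ((n : ℝ) + 2) ^ 10 * (((n : ℝ) + 2) ^ c) ^ 2 :=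
          mul_le_mul_of_nonneg_right h2 (by positivity)
      _ = ((n : ℝ) + 2) ^ (2 * c + 10) := by rw [← pow_mul, ← pow_add]; congr 1; ring
      _ ≤ ((n : ℝ) + 2) ^ G := pow_le_pow_right₀ (by linarith) hG
  have hGp : (0 : ℝ) < ((n : ℝ) + 2) ^ G := by positivity
  have h4 : er κ c n t * ((n : ℝ) + 2) ^ G ≤ 1 := by
    calc er κ c n t * ((n : ℝ) + 2) ^ G ≤ 1 / ((n : ℝ) + 2) ^ G * ((n : ℝ) + 2) ^ G :=
          mul_le_mul_of_nonneg_right h1 hGp.le
      _ = 1 := by field_simp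
  have h5 : er κ c n t * (960 * (((n : ℝ) + 2) ^ c) ^ 2) ≤ 1 :=
    (mul_le_mul_of_nonneg_left h3 (er_pos κ c n t).le).trans h4
  nlinarith

/-- the new stored matrices -/
theorem new_err (hI : Inv P d κ c n cs t s) {G : ℕ} (hN : Num κ c n d t G) (hG : 2 * c + 10 ≤ G)
    (hx : p.1 < n * d) (hy : p.2 < n * d)
    (hK : ∀ b, ∀ i < n * d, ∀ j < n * d, |P.K d n b s.1 i j| ≤ ((n : ℝ) + 2) ^ c)
    (hD : ∀ b, 1 / 8 ≤ Del (sg b) (P.K d n b s.1) p.1 p.2) (b : Bool) :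
    ∀ i < n * d, ∀ j < n * d,
      |P.K d n b (p :: s.1) i j| ≤ 2200000 * (((n : ℝ) + 2) ^ c) ^ 5 ∧
      |(get (newK (bits κ n) (n * d) b (s.K b) p.1 p.2) i j : ℝ) - P.K d n b (p :: s.1) i j| ≤
        er κ c n (t + 1) := by
  intro i hi j hj
  have h := newK_ap (b := b) (A := s.K b) (K := P.K d n b s.1) hx hy (one_le_R c n)
    (le_er κ c n t) (small60 hN hG) hN.big (hI.err b) (hK b) (hD b) i hi j hj
  rw [er_succ]
  exact h

/-- the values of the constraints on the stored matrices are good approximations -/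
theorem eval_err (hk : ∀ a ∈ cs, EAp a k) (hI : Inv P d κ c n cs t s) {G : ℕ}
    (hN : Num κ c n d t G) (hG : 2 * c + 10 ≤ G)
    (hG' : k * ((d + 2) + (5 * c + 22) + 1) + c + 1 ≤ G)
    (hx : p.1 < n * d) (hy : p.2 < n * d)
    (hK : ∀ b, ∀ i < n * d, ∀ j < n * d, |P.K d n b s.1 i j| ≤ ((n : ℝ) + 2) ^ c)
    (hD : ∀ b, 1 / 8 ≤ Del (sg b) (P.K d n b s.1) p.1 p.2) :
    ∀ a ∈ cs, ∀ i < n * d, ∀ j < n * d,
      |((get (evalQ (mkEQ d κ n s p) a) i j : ℚ) : ℝ) - eval (envR P d n s.1 p) a i j| ≤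
        1 / (2 * ((n : ℝ) + 2) ^ c) := by
  intro a ha i hi j hj
  rw [get_mkEQ hx hy a hi hj]
  have hT := two_le_T n
  have hT1 : (1 : ℝ) ≤ (n : ℝ) + 2 := by linarith
  have hε0 := (er_pos κ c n (t + 1)).le
  have hε1 : er κ c n (t + 1) ≤ 1 := by
    refine hN.small.trans ?_
    rw [div_le_one (by positivity)]
    exact one_le_pow₀ hT1
  have hr : 2200000 * (((n : ℝ) + 2) ^ c) ^ 5 ≤ ((n : ℝ) + 2) ^ (5 * c + 22) := by
    have h1 := Afac_le c n
    unfold Afac at h1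
    have h2 : (0 : ℝ) ≤ (((n : ℝ) + 2) ^ c) ^ 5 := by positivity
    rw [show 5 * c + 22 = 22 + 5 * c by ring]
    linarith
  have hr' : (1 : ℝ) ≤ ((n : ℝ) + 2) ^ (5 * c + 22) := one_le_pow₀ hT1
  have hM : (((envR P d n s.1 p).M : ℕ) : ℝ) ≤ ((n : ℝ) + 2) ^ (d + 2) := by
    have h1 := size_le n d
    have h2 : (((envR P d n s.1 p).M : ℕ) : ℝ) = (n : ℝ) * d := by
      simp [envR]
    rw [h2]
    have h3 : (0 : ℝ) ≤ n := Nat.cast_nonneg n
    linarith
  have hc : ∀ c : Cst, |(envR P d n s.1 p).c c| ≤ ((n : ℝ) + 2) ^ ((d + 2) * c.deg) := by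
    intro c'
    have h1 := c'.bd n s.1.length
    have h2 : |((c'.f n s.1.length : ℚ) : ℝ)| ≤ ((n : ℝ) + s.1.length + 2) ^ c'.deg := by
      exact_mod_cast (Rat.cast_le (K := ℝ)).2 h1
    refine h2.trans ?_
    rw [pow_mul]
    refine pow_le_pow_left₀ (by positivity) ?_ _
    refine le_trans ?_ (size_le n d)
    have h3 : s.1.length ≤ n * d := by
      rw [hI.len]
      have := hN.ht
      omega
    have h4 : (s.1.length : ℝ) ≤ n * d := by exact_mod_cast h3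
    linarith
  have hRC : ∀ c' : RC, Ap (er κ c n (t + 1)) (((n : ℝ) + 2) ^ c'.deg)
      ((envR P d n s.1 p).r c') ((envM d κ n s p).r c') := by
    intro c'
    refine ⟨c'.bd n, (c'.err n (bits κ n)).trans ?_⟩
    have h1 := le_er κ c n (t + 1)
    have h2 : (1 : ℝ) ≤ ((n : ℝ) + 2) ^ c'.deg := one_le_pow₀ hT1
    nlinarith
  have hKK : ∀ nw b, ∀ i < (envR P d n s.1 p).M, ∀ j < (envR P d n s.1 p).M,
      Ap (er κ c n (t + 1)) (((n : ℝ) + 2) ^ (5 * c + 22)) ((envR P d n s.1 p).K nw b i j)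
        ((envM d κ n s p).K nw b i j) := by
    intro nw b i hi j hj
    rw [envM_K]
    cases nw
    · refine ⟨(hK b i hi j hj).trans (pow_le_pow_right₀ hT1 (by omega)),
        (hI.err b i hi j hj).trans ((er_le_succ κ c n t).trans ?_)⟩
      nlinarith
    · obtain ⟨h1, h2⟩ := new_err hI hN hG hx hy hK hD b i hi j hj
      refine ⟨h1.trans hr, h2.trans ?_⟩
      nlinarith
  have h := hk a ha ((n : ℝ) + 2) (er κ c n (t + 1)) hT hε0 hε1 (d + 2) (5 * c + 22)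
    (envR P d n s.1 p) (envM d κ n s p) rfl rfl rfl hx hy envM_W rfl hM hc hRC hKK i hi j hj
  refine h.2.trans ?_
  have h5 : ((n : ℝ) + 2) ^ (k * ((d + 2) + (5 * c + 22) + 1)) * (2 * ((n : ℝ) + 2) ^ c) ≤
      ((n : ℝ) + 2) ^ G := by
    calc ((n : ℝ) + 2) ^ (k * ((d + 2) + (5 * c + 22) + 1)) * (2 * ((n : ℝ) + 2) ^ c)
        ≤ ((n : ℝ) + 2) ^ (k * ((d + 2) + (5 * c + 22) + 1)) *
          (((n : ℝ) + 2) * ((n : ℝ) + 2) ^ c) := by
          refine mul_le_mul_of_nonneg_left ?_ (by positivity)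
          exact mul_le_mul_of_nonneg_right hT (by positivity)
      _ = ((n : ℝ) + 2) ^ (k * ((d + 2) + (5 * c + 22) + 1) + c + 1) := by
          rw [pow_succ, pow_add]; ring
      _ ≤ ((n : ℝ) + 2) ^ G := pow_le_pow_right₀ hT1 hG'
  have hGp : (0 : ℝ) < ((n : ℝ) + 2) ^ G := by positivity
  rw [le_div_iff₀ (by positivity)]
  calc er κ c n (t + 1) * ((n : ℝ) + 2) ^ (k * ((d + 2) + (5 * c + 22) + 1)) *
        (2 * ((n : ℝ) + 2) ^ c)
      = er κ c n (t + 1) * (((n : ℝ) + 2) ^ (k * ((d + 2) + (5 * c + 22) + 1)) *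
        (2 * ((n : ℝ) + 2) ^ c)) := by ring
    _ ≤ er κ c n (t + 1) * ((n : ℝ) + 2) ^ G := mul_le_mul_of_nonneg_left h5 hε0
    _ ≤ 1 / ((n : ℝ) + 2) ^ G * ((n : ℝ) + 2) ^ G :=
        mul_le_mul_of_nonneg_right hN.small hGp.le
    _ = 1 := by field_simp

/-- the rounded determinants -/
theorem Del_err (hI : Inv P d κ c n cs t s) {G : ℕ} (hN : Num κ c n d t G)
    (hG : 2 * c + 10 ≤ G) (hx : p.1 < n * d) (hy : p.2 < n * d)
    (hK : ∀ b, ∀ i < n * d, ∀ j < n * d, |P.K d n b s.1 i j| ≤ ((n : ℝ) + 2) ^ c) (b : Bool) :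
    |((Del (sg b : ℚ) (get (s.K b)) p.1 p.2 : ℚ) : ℝ) - Del (sg b) (P.K d n b s.1) p.1 p.2| ≤
      1 / 16 := by
  rw [Del_cast, sg_cast]
  have hR := one_le_R c n
  have h60 := small60 hN hG
  have hε0 := (er_pos κ c n t).le
  have hR2 : 1 ≤ (((n : ℝ) + 2) ^ c) ^ 2 := one_le_pow₀ hR
  have hε1 : er κ c n t ≤ 1 := by nlinarith
  have hA : ∀ i < n * d, ∀ j < n * d, Ap (er κ c n t) (((n : ℝ) + 2) ^ c)
      (P.K d n b s.1 i j) (get (s.K b) i j : ℝ) := by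
    intro i hi j hj
    refine ⟨hK b i hi j hj, (hI.err b i hi j hj).trans ?_⟩
    nlinarith
  exact (Ap.Del (b := b) (L := fun i j => (get (s.K b) i j : ℝ)) hε0 hε1 hR
    (hA _ hx _ hx) (hA _ hy _ hy) (hA _ hx _ hy)).2.trans h60

end step

/-! ### the machine follows the specification -/

section main

variable {d : ℕ} (Sp : Spec d)

theorem inv_step {κ n k t : ℕ} {s : S} (hk : ∀ a ∈ Sp.cs, EAp a k)
    (hI : Inv Sp.P d κ Sp.c n Sp.cs t s) {G : ℕ}
    (hN : Num κ Sp.c n d t G) (hG : 2 * Sp.c + 10 ≤ G)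
    (hG' : k * ((d + 2) + (5 * Sp.c + 22) + 1) + Sp.c + 1 ≤ G) (hn : Sp.n0 ≤ n) (he : Even n)
    (ht : t < Sp.T n) :
    Inv Sp.P d κ Sp.c n Sp.cs (t + 1) (step d κ Sp.c n Sp.cs s) := by
  have hlt : s.1.length < Sp.T n := by rw [hI.len]; exact ht
  obtain ⟨p, hp, hH⟩ := Sp.step n hn he s.1 hI.good hlt
  have hR0 : (0 : ℝ) < ((n : ℝ) + 2) ^ Sp.c := by
    have := two_le_T n
    positivity
  have hH0 : Holds Sp.P d n Sp.cs 0 s.1 p := by
    intro a ha i hi j hj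
    refine (hH a ha i hi j hj).trans ?_
    rw [neg_le_neg_iff]
    positivity
  have hK := Sp.bndK n hn he s.1 hI.good hlt p hp hH0
  have hD := Sp.bndD n hn he s.1 hI.good hlt p hp hH0
  -- the test passes for `p`
  have htest : Test d κ Sp.c n Sp.cs s p := by
    have hx := hp.1.1
    have hy := hp.1.2.1
    have hd : ∀ b, (3 / 16 : ℚ) ≤ Del (sg b : ℚ) (get (s.K b)) p.1 p.2 := by
      intro b
      have h1 := (abs_le.1 (Del_err hI hN hG hx hy hK b)).1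
      have h2 := hD b
      have h3 : ((3 / 16 : ℚ) : ℝ) ≤ ((Del (sg b : ℚ) (get (s.K b)) p.1 p.2 : ℚ) : ℝ) := by
        push_cast at *
        linarith
      exact_mod_cast h3
    refine ⟨⟨hd true, hd false⟩, ?_⟩
    intro a ha i hi j hj
    have h1 := (abs_le.1 (eval_err hk hI hN hG hG' hx hy hK
      (fun b => le_trans (by norm_num) (hD b)) a ha i hi j hj)).2
    have h2 := hH a ha i hi j hj
    have h3 : ((get (evalQ (mkEQ d κ n s p) a) i j : ℚ) : ℝ) ≤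
        -(1 / (2 * ((n : ℝ) + 2) ^ Sp.c)) := by
      have e : 1 / ((n : ℝ) + 2) ^ Sp.c = 2 * (1 / (2 * ((n : ℝ) + 2) ^ Sp.c)) := by
        field_simp
      linarith
    have h4 : ((get (evalQ (mkEQ d κ n s p) a) i j : ℚ) : ℝ) *
        (2 * ((n : ℝ) + 2) ^ Sp.c) ≤ -1 := by
      have := mul_le_mul_of_nonneg_right h3
        (show (0 : ℝ) ≤ 2 * ((n : ℝ) + 2) ^ Sp.c by positivity)
      refine this.trans (le_of_eq ?_)
      field_simp
    have h5 : ((get (evalQ (mkEQ d κ n s p) a) i j * (2 * ((n + 2) ^ Sp.c : ℕ)) : ℚ) : ℝ) ≤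
        ((-1 : ℚ) : ℝ) := by
      push_cast
      exact h4
    exact_mod_cast h5
  -- hence the search succeeds
  have hsome : (choice d κ Sp.c n Sp.cs s).isSome := by
    unfold choice
    rw [List.find?_isSome]
    exact ⟨p, mem_cands.2 ⟨hp.1.1, hp.1.2.1⟩, by simpa using ⟨hp, htest⟩⟩
  obtain ⟨p', hp'⟩ := Option.isSome_iff_exists.1 hsome
  have hp'2 : Pairs.Adm d n s.1 p' ∧ Test d κ Sp.c n Sp.cs s p' := by
    have := List.find?_some hp'
    simpa using this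
  obtain ⟨hA, ⟨hd1, hd2⟩, hT⟩ := hp'2
  have hx := hA.1.1
  have hy := hA.1.2.1
  have hd : ∀ b, (3 / 16 : ℚ) ≤ Del (sg b : ℚ) (get (s.K b)) p'.1 p'.2 := by
    intro b
    cases b
    · exact hd2
    · exact hd1
  have hD' : ∀ b, 1 / 8 ≤ Del (sg b) (Sp.P.K d n b s.1) p'.1 p'.2 := by
    intro b
    have h1 := (abs_le.1 (Del_err hI hN hG hx hy hK b)).2
    have h3 : ((3 / 16 : ℚ) : ℝ) ≤ ((Del (sg b : ℚ) (get (s.K b)) p'.1 p'.2 : ℚ) : ℝ) := by
      exact_mod_cast hd b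
    have h4 : ((3 / 16 : ℚ) : ℝ) = 3 / 16 := by norm_num
    rw [h4] at h3
    linarith
  have hH' : Holds Sp.P d n Sp.cs 0 s.1 p' := by
    intro a ha i hi j hj
    have h1 := (abs_le.1 (eval_err hk hI hN hG hG' hx hy hK hD' a ha i hi j hj)).1
    have h5 : ((get (evalQ (mkEQ d κ n s p') a) i j * (2 * ((n + 2) ^ Sp.c : ℕ)) : ℚ) : ℝ) ≤
        ((-1 : ℚ) : ℝ) := by
      exact_mod_cast hT a ha i hi j hj
    push_cast at h5
    have h6 : ((get (evalQ (mkEQ d κ n s p') a) i j : ℚ) : ℝ) ≤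
        -(1 / (2 * ((n : ℝ) + 2) ^ Sp.c)) := by
      rw [← neg_div, le_div_iff₀ (by positivity)]
      exact h5
    linarith
  unfold step
  rw [hp']
  refine ⟨?_, ⟨hI.good, hA, hH'⟩, ?_⟩
  · change (p' :: s.1).length = t + 1
    rw [List.length_cons, hI.len]
  · intro b i hi j hj
    have h := (new_err hI hN hG hx hy hK hD' b i hi j hj).2
    cases b <;> exact h

theorem inv_init {κ c n : ℕ} (P : Par) (cs : List E) (h4 : (4 : ℝ) ≤ bits κ n) :
    Inv P d κ c n cs 0 (init P d κ n) := by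
  refine ⟨rfl, trivial, ?_⟩
  intro b i hi j hj
  have h0 : get ((init P d κ n).K b) i j = rc (bits κ n)
      (K0 (P.gam.q n (bits κ n)) (sg b) (P.mu.q n (bits κ n)) n d i j) := by
    cases b <;> exact get_tab hi hj
  rw [h0]
  set N := bits κ n with hN
  have hN4 : 4 ≤ N := by exact_mod_cast h4
  have h16 : (16 : ℝ) ≤ 2 ^ N := by
    have : (2 : ℝ) ^ 4 ≤ 2 ^ N := pow_le_pow_right₀ (by norm_num) hN4
    norm_num at this
    exact this
  have h1 := K0_err (s := sg b) (P.gam.err n N) (P.mu.err n N) n d i j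
  rw [← sg_cast, ← K0_cast] at h1
  have h2 := K0_bd (s := sg b) (P.gam_le n) (abs_sg b).le (P.mu_le n) n d i j
  rw [← sg_cast] at h2
  have h3 : (1 : ℝ) / 2 ^ N ≤ 1 := by
    rw [div_le_one (by positivity)]
    linarith
  have h5 : |((K0 (P.gam.q n N) (sg b) (P.mu.q n N) n d i j : ℚ) : ℝ)| ≤ 2 ^ N := by
    have e : ((K0 (P.gam.q n N) (sg b) (P.mu.q n N) n d i j : ℚ) : ℝ) =
      K0 (P.gam.v n) ((sg b : ℚ) : ℝ) (P.mu.v n) n d i j +
      (((K0 (P.gam.q n N) (sg b) (P.mu.q n N) n d i j : ℚ) : ℝ) -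
        K0 (P.gam.v n) ((sg b : ℚ) : ℝ) (P.mu.v n) n d i j) := by ring
    rw [e]
    refine (abs_add_le _ _).trans ?_
    linarith
  have h6 := rc_errR h5
  unfold er
  rw [pow_zero, mul_one]
  unfold Par.K Kof init
  simp only
  rw [← sg_cast]
  have e : ((rc N (K0 (P.gam.q n N) (sg b) (P.mu.q n N) n d i j) : ℚ) : ℝ) -
      K0 (P.gam.v n) ((sg b : ℚ) : ℝ) (P.mu.v n) n d i j =
      (((rc N (K0 (P.gam.q n N) (sg b) (P.mu.q n N) n d i j) : ℚ) : ℝ) -
        ((K0 (P.gam.q n N) (sg b) (P.mu.q n N) n d i j : ℚ) : ℝ)) +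
      (((K0 (P.gam.q n N) (sg b) (P.mu.q n N) n d i j : ℚ) : ℝ) -
        K0 (P.gam.v n) ((sg b : ℚ) : ℝ) (P.mu.v n) n d i j) := by ring
  rw [e]
  refine (abs_add_le _ _).trans ?_
  have e5 : (5 : ℝ) / 2 ^ N = 1 / 2 ^ N + 4 * (1 / 2 ^ N) := by ring
  rw [e5]
  exact add_le_add h6 h1

/-- **The machine.** A specification yields a poly-time selector of legal lists of pairs. -/
theorem machine (hd : 1 ≤ d) : ∃ sel : Un → List (ℕ × ℕ), PTF sel ∧
    ∀ n, Sp.n0 ≤ n → Even n →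
      Good Sp.P d n Sp.cs (sel ⟨n⟩) ∧ (sel ⟨n⟩).length = Sp.T n := by
  obtain ⟨k, hk⟩ := exists_EAp_list Sp.cs
  obtain ⟨G, hGdef⟩ : ∃ G, G = k * ((d + 2) + (5 * Sp.c + 22) + 1) + 2 * Sp.c + 11 := ⟨_, rfl⟩
  obtain ⟨κ, hκdef⟩ : ∃ κ, κ = (22 + 5 * Sp.c) * d + G + 3 + (23 + 5 * Sp.c) := ⟨_, rfl⟩
  have hTu : PTU (fun u : Un => Sp.T u.val) := by
    refine PTF.toPTU Sp.T_ptf ?_
    have h1 : PTU (fun u : Un => u.val * d) := PTU.mul (PTU.val PTF.id) (PTU.const d)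
    refine PB.mono h1.pb (fun u => ?_)
    have := Sp.T_le u.val
    omega
  refine ⟨fun u => (run Sp.P d κ Sp.c u.val Sp.cs (Sp.T u.val)).1, ?_, ?_⟩
  · have h := ptf_run Sp.P d κ Sp.c Sp.cs (n := fun u : Un => u.val) (t := fun u => Sp.T u.val)
      (PTU.val PTF.id) hTu
    exact PTF.comp (g := fun s : S => s.1) (by fun_prop) h
  · intro n hn he
    have hinv : ∀ t ≤ Sp.T n, Inv Sp.P d κ Sp.c n Sp.cs t (run Sp.P d κ Sp.c n Sp.cs t) := by
      intro t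
      induction t with
      | zero =>
        intro _
        refine inv_init Sp.P Sp.cs ?_
        have h1 : 4 ≤ bits κ n := by
          unfold bits
          have : 1 ≤ (n + 2) ^ 2 := Nat.one_le_pow _ _ (by omega)
          have h2 : 4 ≤ κ := by omega
          nlinarith
        exact_mod_cast h1
      | succ t ih =>
        intro ht
        have hI := ih (by omega)
        have ht2 : 2 * t ≤ n * d := by
          have := Sp.T_le n
          omega
        have hN : Num κ Sp.c n d t G := by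
          refine ⟨er_le hd ht2 (by omega), ?_, ht2⟩
          have h1 := Afac_le Sp.c n
          unfold Afac at h1
          have h2 : (0 : ℝ) ≤ (((n : ℝ) + 2) ^ Sp.c) ^ 5 := by positivity
          have hT := two_le_T n
          have h3 : 4400000 * (((n : ℝ) + 2) ^ Sp.c) ^ 5 ≤ ((n : ℝ) + 2) ^ (23 + 5 * Sp.c) := by
            have e : ((n : ℝ) + 2) ^ (23 + 5 * Sp.c) =
                ((n : ℝ) + 2) ^ (22 + 5 * Sp.c) * ((n : ℝ) + 2) := by
              rw [← pow_succ]; congr 1; ring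
            rw [e]
            nlinarith
          refine h3.trans (pow_le_bits ?_)
          have h4 : 23 + 5 * Sp.c ≤ κ := by omega
          nlinarith
        unfold run at hI ⊢
        rw [Function.iterate_succ_apply']
        exact inv_step Sp hk hI hN (by omega) (by omega) hn he (by omega)
    have h := hinv (Sp.T n) le_rfl
    exact ⟨h.good, h.len⟩

end main

end Crest.Agent.R062.Mach
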