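import Crest.Agent.R062.MachMain
import Crest.Agent.R62.Start
import Crest.Agent.R62.Glue

/-!
# R62: parameters of the process, poly-time constants
-/

set_option autoImplicit false

namespace Crest.Agent.R062.Mach

open Crest.Agent.Lib.PT

/-! ### the constant `1 / √q` -/

/-- `2 ^ N / √q`, rounded down -/
def sQ (q N : ℕ) : ℕ := Nat.sqrt (4 ^ N / q)

theorem sQ_err {q : ℕ} (hq : 1 ≤ q) (N : ℕ) :
    |((mkRat (sQ q N) (2 ^ N) : ℚ) : ℝ) - 1 / Real.sqrt q| ≤ 1 / 2 ^ N := by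
  have hq0 : (0 : ℝ) < q := by exact_mod_cast hq
  have hs0 : 0 < Real.sqrt q := Real.sqrt_pos.2 hq0
  have h2N : (0 : ℝ) < 2 ^ N := by positivity
  have h4 : (4 : ℝ) ^ N = (2 ^ N) ^ 2 := by rw [← pow_mul, mul_comm, pow_mul]; norm_num
  have h1 : sQ q N ^ 2 * q ≤ 4 ^ N :=
    (Nat.mul_le_mul_right q (Nat.sqrt_le' _)).trans (Nat.div_mul_le_self _ _)
  have h2 : 4 ^ N < (sQ q N + 1) ^ 2 * q := by
    have h3 : 4 ^ N / q < (sQ q N + 1) ^ 2 := Nat.lt_succ_sqrt' _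
    calc 4 ^ N < q * (4 ^ N / q + 1) := Nat.lt_mul_div_succ _ hq
      _ = (4 ^ N / q + 1) * q := Nat.mul_comm _ _
      _ ≤ (sQ q N + 1) ^ 2 * q := Nat.mul_le_mul_right q h3
  have h1' : (sQ q N : ℝ) * Real.sqrt q ≤ 2 ^ N := by
    have h3 : ((sQ q N : ℝ)) ^ 2 * q ≤ (4 : ℝ) ^ N := by exact_mod_cast h1
    rw [h4] at h3
    rw [← pow_le_pow_iff_left₀ (by positivity) h2N.le (two_ne_zero), mul_pow,
      Real.sq_sqrt hq0.le]
    exact h3
  have h2' : (2 : ℝ) ^ N < ((sQ q N : ℝ) + 1) * Real.sqrt q := by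
    have h3 : (4 : ℝ) ^ N < ((sQ q N : ℝ) + 1) ^ 2 * q := by exact_mod_cast h2
    rw [h4] at h3
    refine lt_of_pow_lt_pow_left₀ 2 (by positivity) ?_
    rw [mul_pow, Real.sq_sqrt hq0.le]
    exact h3
  rw [Rat.mkRat_eq_div]
  push_cast
  have e : (sQ q N : ℝ) / 2 ^ N - 1 / Real.sqrt q =
      ((sQ q N : ℝ) * Real.sqrt q - 2 ^ N) / Real.sqrt q / 2 ^ N := by
    field_simp
  rw [e, abs_div, abs_of_pos h2N]
  refine div_le_div_of_nonneg_right ?_ h2N.le
  rw [abs_div, abs_of_pos hs0, div_le_one hs0, abs_le]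
  constructor
  · linarith
  · linarith [h1']

/-- the real constant `a n / √q`, `|a n| ≤ 1` -/
noncomputable def RC.divSqrt (q : ℕ) (hq : 1 ≤ q) (a : ℕ → ℚ) (ha : PTF (fun n : Un => a n.val))
    (h1 : ∀ n, |a n| ≤ 1) : RC where
  v n := (a n : ℝ) / Real.sqrt q
  q n N := a n * mkRat (sQ q N) (2 ^ N)
  ptf := by
    have h2 : PTU (fun p : Un × Un => p.2.val) := PTU.val PTF.snd
    refine PTF.ratMul (PTF.comp (g := fun n : Un => a n.val) ha PTF.fst)
      (PTF.ratMk (PTF.intNatCast ?_) (PTF.natPow (PTF.const 2) h2))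
    exact PTF.natSqrt (PTF.natDiv (PTF.natPow (PTF.const 4) h2) (PTF.const q))
  deg := 0
  bd n := by
    have h2 : |(a n : ℝ)| ≤ 1 := by
      have := (Rat.cast_le (K := ℝ)).2 (h1 n)
      push_cast at this
      exact this
    have h3 : (1 : ℝ) ≤ Real.sqrt q := Real.one_le_sqrt.2 (by exact_mod_cast hq)
    rw [pow_zero, abs_div, abs_of_pos (show (0 : ℝ) < Real.sqrt q by linarith)]
    exact (div_le_one (show (0 : ℝ) < Real.sqrt q by linarith)).2 (h2.trans h3)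
  err n N := by
    have h2 : |(a n : ℝ)| ≤ 1 := by
      have := (Rat.cast_le (K := ℝ)).2 (h1 n)
      push_cast at this
      exact this
    have h3 := sQ_err hq N
    have e : ((a n * mkRat (sQ q N) (2 ^ N) : ℚ) : ℝ) - (a n : ℝ) / Real.sqrt q =
        (a n : ℝ) * (((mkRat (sQ q N) (2 ^ N) : ℚ) : ℝ) - 1 / Real.sqrt q) := by
      push_cast
      ring
    rw [e, abs_mul]
    calc |(a n : ℝ)| * |((mkRat (sQ q N) (2 ^ N) : ℚ) : ℝ) - 1 / Real.sqrt q|
        ≤ 1 * (1 / 2 ^ N) := mul_le_mul h2 h3 (abs_nonneg _) zero_le_one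
      _ = 1 / 2 ^ N := one_mul _

/-- data of the parameter `δ` -/
structure Delta where
  /-- the value -/
  f : ℕ → ℚ
  /-- poly-time -/
  ptf : PTF (fun n : Un => f n.val)
  /-- bound -/
  nonneg : ∀ n, 0 ≤ f n
  /-- bound -/
  le_one : ∀ n, f n ≤ 1

/-- `√q · mu` as a rational function of `δ` -/
def muRat (d : ℕ) (δ : ℚ) : ℚ := ((d : ℚ) - 1 - (1 - δ) ^ 2) / ((d : ℚ) - 2 + d * δ)

theorem muRat_bd {d : ℕ} (hd : 3 ≤ d) {δ : ℚ} (h0 : 0 ≤ δ) (h1 : δ ≤ 1) : |muRat d δ| ≤ 1 := by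
  have hd' : (3 : ℚ) ≤ d := by exact_mod_cast hd
  have h2 : 0 < (d : ℚ) - 2 + d * δ := by nlinarith
  unfold muRat
  rw [abs_div, abs_of_pos h2, div_le_one h2, abs_le]
  constructor <;> nlinarith

/-- the parameters `gam = (1-δ)/√q`, `mu = (1-gam²)/(2√q-gam d)`, `q = d - 1` -/
noncomputable def parOf (d : ℕ) (hd : 3 ≤ d) (δ : Delta) : Par where
  gam := RC.divSqrt (d - 1) (by omega) (fun n => 1 - δ.f n)
    (PTF.ratSub (PTF.const 1) δ.ptf)
    (fun n => by
      have h0 := δ.nonneg n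
      have h1 := δ.le_one n
      rw [abs_le]
      constructor <;> linarith)
  mu := RC.divSqrt (d - 1) (by omega) (fun n => muRat d (δ.f n))
    (by
      unfold muRat
      exact PTF.ratDiv (PTF.ratSub (PTF.const _) (PTF.ratPowConst
        (PTF.ratSub (PTF.const 1) δ.ptf) 2)) (PTF.ratAdd (PTF.const _)
          (PTF.ratMul (PTF.const _) δ.ptf)))
    (fun n => muRat_bd hd (δ.nonneg n) (δ.le_one n))
  gam_le n := by
    have := RC.bd (RC.divSqrt (d - 1) (by omega) (fun n => 1 - δ.f n)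
      (PTF.ratSub (PTF.const 1) δ.ptf)
      (fun n => by
        have h0 := δ.nonneg n
        have h1 := δ.le_one n
        rw [abs_le]
        constructor <;> linarith)) n
    simpa [RC.divSqrt] using this
  mu_le n := by
    have := RC.bd (RC.divSqrt (d - 1) (by omega) (fun n => muRat d (δ.f n))
      (by
        unfold muRat
        exact PTF.ratDiv (PTF.ratSub (PTF.const _) (PTF.ratPowConst
          (PTF.ratSub (PTF.const 1) δ.ptf) 2)) (PTF.ratAdd (PTF.const _)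
            (PTF.ratMul (PTF.const _) δ.ptf)))
      (fun n => muRat_bd hd (δ.nonneg n) (δ.le_one n))) n
    simpa [RC.divSqrt] using this

theorem cast_pred {d : ℕ} (hd : 3 ≤ d) : ((d - 1 : ℕ) : ℝ) = (d : ℝ) - 1 := by
  rw [Nat.cast_sub (by omega)]; simp

theorem parOf_gam (d : ℕ) (hd : 3 ≤ d) (δ : Delta) (n : ℕ) :
    (parOf d hd δ).gam.v n = R62.Start.gam d (δ.f n : ℝ) := by
  change ((1 - δ.f n : ℚ) : ℝ) / Real.sqrt ((d - 1 : ℕ) : ℝ) = _
  rw [cast_pred hd]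
  unfold R62.Start.gam
  push_cast
  rfl

theorem parOf_mu (d : ℕ) (hd : 3 ≤ d) (δ : Delta) (n : ℕ) :
    (parOf d hd δ).mu.v n = R62.Start.muOf d ((parOf d hd δ).gam.v n) := by
  rw [parOf_gam]
  change ((muRat d (δ.f n) : ℚ) : ℝ) / Real.sqrt ((d - 1 : ℕ) : ℝ) = _
  rw [cast_pred hd]
  unfold R62.Start.muOf R62.Start.gam muRat
  have hd' : (3 : ℝ) ≤ d := by exact_mod_cast hd
  have h0 : (0 : ℝ) ≤ δ.f n := by exact_mod_cast δ.nonneg n
  have hs : 0 < Real.sqrt ((d : ℝ) - 1) := Real.sqrt_pos.2 (by linarith)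
  have hs2 : Real.sqrt ((d : ℝ) - 1) ^ 2 = (d : ℝ) - 1 := Real.sq_sqrt (by linarith)
  have h2 : 0 < (d : ℝ) - 2 + d * δ.f n := by nlinarith
  push_cast
  generalize Real.sqrt ((d : ℝ) - 1) = q at *
  have hd2 : (d : ℝ) = q ^ 2 + 1 := by linarith
  have h3 : 2 * q - (1 - (δ.f n : ℝ)) / q * d = ((d : ℝ) - 2 + d * δ.f n) / q := by
    field_simp
    rw [hd2]
    ring
  rw [h3]
  have h4 : 1 - ((1 - (δ.f n : ℝ)) / q) ^ 2 = ((d : ℝ) - 1 - (1 - δ.f n) ^ 2) / q ^ 2 := by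
    field_simp
    rw [hd2]
    ring
  rw [h4]
  field_simp

theorem parOf_ok {d : ℕ} (hd : 3 ≤ d) (δ : Delta) (n : ℕ) (h : δ.f n < 1) :
    0 < (parOf d hd δ).gam.v n ∧ (parOf d hd δ).gam.v n < 1 ∧
      0 < 2 * Real.sqrt ((d : ℝ) - 1) - (parOf d hd δ).gam.v n * d := by
  rw [parOf_gam]
  unfold R62.Start.gam
  have hd' : (3 : ℝ) ≤ d := by exact_mod_cast hd
  have h0 : (0 : ℝ) ≤ δ.f n := by exact_mod_cast δ.nonneg n
  have h1 : (δ.f n : ℝ) < 1 := by exact_mod_cast h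
  have hs : 1 < Real.sqrt ((d : ℝ) - 1) := by
    rw [Real.lt_sqrt (by norm_num)]
    linarith
  have hs2 : Real.sqrt ((d : ℝ) - 1) ^ 2 = (d : ℝ) - 1 := Real.sq_sqrt (by linarith)
  generalize Real.sqrt ((d : ℝ) - 1) = q at *
  have hq0 : 0 < q := by linarith
  have hd2 : (d : ℝ) = q ^ 2 + 1 := by linarith
  refine ⟨div_pos (by linarith) hq0, ?_, ?_⟩
  · rw [div_lt_one hq0]
    linarith
  · have h3 : 2 * q - (1 - (δ.f n : ℝ)) / q * d = ((d : ℝ) - 2 + d * δ.f n) / q := by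
      field_simp
      rw [hd2]
      ring
    rw [h3]
    have h2 : 0 < (d : ℝ) - 2 + d * δ.f n := by nlinarith
    positivity

/-! ### roots and the toolkit of constants -/

/-- `⌊n^(1/k)⌋` is poly-time -/
theorem ptu_root {γ : Type} [PTCode γ] (k : ℕ) (hk : k ≠ 0) {n : γ → ℕ} (hn : PTU n) :
    PTU (fun c => Nat.nthRoot k (n c)) := by
  have hle : ∀ m, Nat.nthRoot k m ≤ m := by
    intro m
    have h1 := Nat.pow_nthRoot_le (n := k) (a := m) (Or.inl hk)
    exact (Nat.le_self_pow hk _).trans h1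
  refine PTF.toPTU ?_ (PB.mono hn.pb (fun c => hle _))
  refine Arith.ptf_of_le (K := n) ?_ hn (fun c => (hle _).trans_lt Nat.lt_two_pow_self)
  refine PTPred.of_iff (p := fun p : γ × ℕ => p.2 ^ k ≤ n p.1) ?_ (fun p => ?_)
  · exact PTPred.natLe (PTF.natPowConst PTF.snd k) (PTF.comp (PTU.toPTF hn) PTF.fst)
  · exact (Nat.le_nthRoot_iff hk).symm

/-- `δ = ⌊n^(1/k)⌋^(-a)` -/
def Delta.root (k : ℕ) (hk : k ≠ 0) (a : ℕ) : Delta where
  f n := ((Nat.nthRoot k n : ℚ) ^ a)⁻¹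
  ptf := PTF.ratInv (PTF.ratPowConst (PTF.ratNatCast
    (PTU.toPTF (ptu_root k hk (PTU.val PTF.id)))) a)
  nonneg n := by positivity
  le_one n := by
    rcases Nat.eq_zero_or_pos (Nat.nthRoot k n) with h | h
    · rw [h]
      rcases Nat.eq_zero_or_pos a with h' | h'
      · simp [h']
      · rw [Nat.cast_zero, zero_pow (by omega), inv_zero]
        norm_num
    · exact inv_le_one_of_one_le₀ (one_le_pow₀ (by exact_mod_cast h))

@[simp] theorem Delta.root_f (k : ℕ) (hk : k ≠ 0) (a n : ℕ) :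
    (Delta.root k hk a).f n = ((Nat.nthRoot k n : ℚ) ^ a)⁻¹ := rfl

namespace Cst

theorem one_le (n t : ℕ) : (1 : ℚ) ≤ (n : ℚ) + t + 2 := by
  have h1 : (0 : ℚ) ≤ n := Nat.cast_nonneg n
  have h2 : (0 : ℚ) ≤ t := Nat.cast_nonneg t
  linarith

/-- a constant -/
def const (r : ℚ) : Cst where
  f _ _ := r
  ptf := PTF.const r
  deg := ⌈|r|⌉₊
  bd n t := by
    have h1 : |r| ≤ (⌈|r|⌉₊ : ℚ) := Nat.le_ceil _
    have h2 : (⌈|r|⌉₊ : ℚ) ≤ 2 ^ ⌈|r|⌉₊ := by
      exact_mod_cast (Nat.lt_two_pow_self (n := ⌈|r|⌉₊)).le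
    refine h1.trans (h2.trans (pow_le_pow_left₀ (by norm_num) ?_ _))
    have h1 : (0 : ℚ) ≤ n := Nat.cast_nonneg n
    have h2 : (0 : ℚ) ≤ t := Nat.cast_nonneg t
    linarith

/-- sum -/
def add (a b : Cst) : Cst where
  f n t := a.f n t + b.f n t
  ptf := PTF.ratAdd a.ptf b.ptf
  deg := a.deg + b.deg + 1
  bd n t := by
    have h1 := one_le n t
    have h2 : (1 : ℚ) + 1 ≤ (n : ℚ) + t + 2 := by
      have h1 : (0 : ℚ) ≤ n := Nat.cast_nonneg n
      have h2 : (0 : ℚ) ≤ t := Nat.cast_nonneg t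
      linarith
    have h3 : ((n : ℚ) + t + 2) ^ a.deg ≤ ((n : ℚ) + t + 2) ^ (a.deg + b.deg) :=
      pow_le_pow_right₀ h1 (by omega)
    have h4 : ((n : ℚ) + t + 2) ^ b.deg ≤ ((n : ℚ) + t + 2) ^ (a.deg + b.deg) :=
      pow_le_pow_right₀ h1 (by omega)
    have h5 : (0 : ℚ) ≤ ((n : ℚ) + t + 2) ^ (a.deg + b.deg) := by positivity
    refine (abs_add_le _ _).trans ((add_le_add ((a.bd n t).trans h3) ((b.bd n t).trans h4)).trans ?_)
    rw [pow_succ]
    nlinarith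

/-- product -/
def mul (a b : Cst) : Cst where
  f n t := a.f n t * b.f n t
  ptf := PTF.ratMul a.ptf b.ptf
  deg := a.deg + b.deg
  bd n t := by
    have h1 := one_le n t
    rw [abs_mul, pow_add]
    exact mul_le_mul (a.bd n t) (b.bd n t) (abs_nonneg _) (by positivity)

/-- negation -/
def neg (a : Cst) : Cst where
  f n t := -a.f n t
  ptf := PTF.ratNeg a.ptf
  deg := a.deg
  bd n t := by rw [abs_neg]; exact a.bd n t

/-- difference -/
def sub (a b : Cst) : Cst := add a (neg b)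

/-- natural power -/
def pow (a : Cst) (k : ℕ) : Cst where
  f n t := a.f n t ^ k
  ptf := PTF.ratPowConst a.ptf k
  deg := a.deg * k
  bd n t := by
    rw [abs_pow, pow_mul]
    exact pow_le_pow_left₀ (abs_nonneg _) (a.bd n t) k

/-- inverse, with a polynomial lower bound -/
def inv (a : Cst) (e : ℕ) (h : ∀ n t, a.f n t = 0 ∨ 1 ≤ |a.f n t| * ((n : ℚ) + t + 2) ^ e) :
    Cst where
  f n t := (a.f n t)⁻¹
  ptf := PTF.ratInv a.ptf
  deg := e
  bd n t := by
    have h1 := one_le n t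
    rcases h n t with h0 | h0
    · rw [h0, inv_zero, abs_zero]
      positivity
    · have h2 : 0 < |a.f n t| := by
        by_contra hc
        have : |a.f n t| = 0 := le_antisymm (not_lt.1 hc) (abs_nonneg _)
        rw [this, zero_mul] at h0
        linarith
      rw [abs_inv, inv_le_iff_one_le_mul₀ h2, mul_comm]
      exact h0

/-- maximum -/
def max (a b : Cst) : Cst where
  f n t := Max.max (a.f n t) (b.f n t)
  ptf := ptf_max a.ptf b.ptf
  deg := a.deg + b.deg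
  bd n t := by
    have h1 := one_le n t
    refine abs_max_le_max_abs_abs.trans (max_le ?_ ?_)
    · exact (a.bd n t).trans (pow_le_pow_right₀ h1 (by omega))
    · exact (b.bd n t).trans (pow_le_pow_right₀ h1 (by omega))

/-- case distinction `a ≤ b` -/
def ite (a b u v : Cst) : Cst where
  f n t := if a.f n t ≤ b.f n t then u.f n t else v.f n t
  ptf := PTF.ite (PTPred.ratLe a.ptf b.ptf) u.ptf v.ptf
  deg := u.deg + v.deg
  bd n t := by
    have h1 := one_le n t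
    split_ifs
    · exact (u.bd n t).trans (pow_le_pow_right₀ h1 (by omega))
    · exact (v.bd n t).trans (pow_le_pow_right₀ h1 (by omega))

/-- natural-number valued constants -/
def ofNat (g : ℕ → ℕ → ℕ) (hg : PTF (fun p : Un × Un => g p.1.val p.2.val)) (deg : ℕ)
    (h : ∀ n t, g n t ≤ (n + t + 2) ^ deg) : Cst where
  f n t := (g n t : ℚ)
  ptf := PTF.ratNatCast hg
  deg := deg
  bd n t := by
    rw [Nat.abs_cast]
    exact_mod_cast h n t

/-- `n` -/
def n : Cst := ofNat (fun n _ => n) (PTU.toPTF (PTU.val PTF.fst)) 1 (fun n t => by simp; omega)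

/-- `t` -/
def t : Cst := ofNat (fun _ t => t) (PTU.toPTF (PTU.val PTF.snd)) 1 (fun n t => by simp; omega)

/-- the number of free stubs -/
def free (d : ℕ) : Cst := sub (mul n (const d)) (mul (const 2) t)

/-- `⌊n^(1/k)⌋` -/
def root (k : ℕ) (hk : k ≠ 0) : Cst := ofNat (fun n _ => Nat.nthRoot k n)
  (PTU.toPTF (ptu_root k hk (PTU.val PTF.fst))) 1 (fun n t => by
    have h1 := Nat.pow_nthRoot_le (n := k) (a := n) (Or.inl hk)
    have h2 := (Nat.le_self_pow hk _).trans h1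
    rw [pow_one]
    omega)

@[simp] theorem const_f (r : ℚ) (n t : ℕ) : (const r).f n t = r := rfl
@[simp] theorem add_f (a b : Cst) (n t : ℕ) : (add a b).f n t = a.f n t + b.f n t := rfl
@[simp] theorem mul_f (a b : Cst) (n t : ℕ) : (mul a b).f n t = a.f n t * b.f n t := rfl
@[simp] theorem neg_f (a : Cst) (n t : ℕ) : (neg a).f n t = -a.f n t := rfl
@[simp] theorem sub_f (a b : Cst) (n t : ℕ) : (sub a b).f n t = a.f n t - b.f n t :=
  (sub_eq_add_neg _ _).symm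
@[simp] theorem pow_f (a : Cst) (k n t : ℕ) : (pow a k).f n t = a.f n t ^ k := rfl
@[simp] theorem inv_f (a : Cst) (e : ℕ) (h) (n t : ℕ) : (inv a e h).f n t = (a.f n t)⁻¹ := rfl
@[simp] theorem max_f (a b : Cst) (n t : ℕ) :
    (max a b).f n t = Max.max (a.f n t) (b.f n t) := rfl
@[simp] theorem ite_f (a b u v : Cst) (n t : ℕ) :
    (ite a b u v).f n t = if a.f n t ≤ b.f n t then u.f n t else v.f n t := rfl
@[simp] theorem n_f (n t : ℕ) : Cst.n.f n t = n := rfl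
@[simp] theorem t_f (n t : ℕ) : Cst.t.f n t = t := rfl
@[simp] theorem free_f (d n t : ℕ) : (free d).f n t = n * d - 2 * t := by
  unfold free
  simp
@[simp] theorem root_f (k : ℕ) (hk : k ≠ 0) (n t : ℕ) :
    (root k hk).f n t = (Nat.nthRoot k n : ℚ) := rfl

end Cst

end Crest.Agent.R062.Mach
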