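import Crest.Agent.R062.MachDefs

/-!
# R62: the machine, rational matrices as lists and poly-time evaluation of expressions
-/

set_option autoImplicit false

namespace Crest.Agent.R062.Mach

open Crest.Agent.Lib.PT

/-- matrices stored as lists of rows -/
abbrev LM := List (List ℚ)

/-- access -/
def get (A : LM) (i j : ℕ) : ℚ := (A.getD i []).getD j 0

/-- tabulation -/
def tab (M : ℕ) (f : ℕ → ℕ → ℚ) : LM := (List.range M).map (fun i => (List.range M).map (f i))

theorem get_tab {M : ℕ} {f : ℕ → ℕ → ℚ} {i j : ℕ} (hi : i < M) (hj : j < M) :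
    get (tab M f) i j = f i j := by
  simp [get, tab, List.getD_eq_getElem?_getD, hi, hj]

theorem getD_min {α : Type} (l : List α) (i : ℕ) (d : α) :
    l.getD (min i l.length) d = l.getD i d := by
  rcases le_or_gt l.length i with h | h
  · rw [min_eq_right h, List.getD_eq_getElem?_getD, List.getD_eq_getElem?_getD,
      List.getElem?_eq_none le_rfl, List.getElem?_eq_none h]
  · rw [min_eq_left h.le]

section ptf

variable {γ : Type} [PTCode γ]

theorem ptf_getD' {α : Type} [PTCode α] {l : γ → List α} {i : γ → ℕ} {d : γ → α} (hl : PTF l)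
    (hi : PTF i) (hd : PTF d) : PTF (fun c => (l c).getD (i c) (d c)) := by
  refine (PTF.getD (n := fun c => min (i c) (l c).length)
    (PTF.natMinUn hi (PTU.length hl)) hl hd).of_eq (fun c => getD_min _ _ _)

theorem ptf_get {A : γ → LM} {i j : γ → ℕ} (hA : PTF A) (hi : PTF i) (hj : PTF j) :
    PTF (fun c => get (A c) (i c) (j c)) :=
  ptf_getD' (ptf_getD' hA hi (PTF.const [])) hj (PTF.const 0)

theorem ptf_tab {M : γ → ℕ} (hM : PTU M) {f : γ → ℕ → ℕ → ℚ}
    (hf : PTF (fun p : (γ × ℕ) × ℕ => f p.1.1 p.1.2 p.2)) :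
    PTF (fun c => tab (M c) (f c)) := by
  have h1 : PTU (fun p : γ × ℕ => M p.1) := PTU.comp hM PTF.fst
  have h2 : PTF (fun p : γ × ℕ => (List.range (M p.1)).map (f p.1 p.2)) :=
    PTF.tabulate (γ := γ × ℕ) (n := fun p => M p.1) (f := fun p j => f p.1 p.2 j) h1 hf
  exact PTF.tabulate (f := fun c i => (List.range (M c)).map (f c i)) hM h2

theorem ptf_max {a b : γ → ℚ} (ha : PTF a) (hb : PTF b) : PTF (fun c => max (a c) (b c)) := by
  refine (PTF.ite (PTPred.ratLe ha hb) hb ha).of_eq (fun c => ?_)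
  rw [max_def]

end ptf

/-- machine environments: `((M, x, y, N), (K⁺, K⁻, K'⁺, K'⁻), pairs, n, t)` -/
abbrev EQ := (Un × ℕ × ℕ × Un) × (LM × LM × LM × LM) × List (ℕ × ℕ) × Un × Un

namespace EQ

/-- size -/
def M (e : EQ) : ℕ := e.1.1.val
/-- stub -/
def x (e : EQ) : ℕ := e.1.2.1
/-- stub -/
def y (e : EQ) : ℕ := e.1.2.2.1
/-- number of bits -/
def N (e : EQ) : ℕ := e.1.2.2.2.val
/-- the stored matrix -/
def K (e : EQ) (nw b : Bool) : LM :=
  if nw then (if b then e.2.1.2.2.1 else e.2.1.2.2.2) else (if b then e.2.1.1 else e.2.1.2.1)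
/-- pairs -/
def l (e : EQ) : List (ℕ × ℕ) := e.2.2.1
/-- number of vertices -/
def n (e : EQ) : ℕ := e.2.2.2.1.val
/-- number of pairs -/
def t (e : EQ) : ℕ := e.2.2.2.2.val
/-- pairs before/after -/
def L (e : EQ) (nw : Bool) : List (ℕ × ℕ) := if nw then (e.x, e.y) :: e.l else e.l

/-- the environment described by `e` -/
def env (e : EQ) : Env ℚ where
  M := e.M
  x := e.x
  y := e.y
  K := fun nw b => get (e.K nw b)
  W := fun nw i => decide (unused (e.L nw) i)
  r := fun c => c.q e.n e.N
  c := fun c => c.f e.n e.t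

end EQ

/-- evaluation on stored matrices -/
def evalQ (e : EQ) : E → LM
  | .K nw b => e.K nw b
  | .idW nw => tab e.M (fun i j => if i = j ∧ unused (e.L nw) i then 1 else 0)
  | .one => tab e.M (fun i j => if i = j then 1 else 0)
  | .rc c => tab e.M (fun _ _ => c.q e.n e.N)
  | .cst c => tab e.M (fun _ _ => c.f e.n e.t)
  | .add a b => tab e.M (fun i j => get (evalQ e a) i j + get (evalQ e b) i j)
  | .mul a b => tab e.M (fun i j =>
      ∑ k ∈ Finset.range e.M, get (evalQ e a) i k * get (evalQ e b) k j)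
  | .had a b => tab e.M (fun i j => get (evalQ e a) i j * get (evalQ e b) i j)
  | .pos a => tab e.M (fun i j => max (get (evalQ e a) i j) 0)
  | .tr a => tab e.M (fun _ _ => ∑ k ∈ Finset.range e.M, get (evalQ e a) k k)
  | .pick p q a => tab e.M (fun _ _ =>
      get (evalQ e a) (if p then e.y else e.x) (if q then e.y else e.x))

theorem get_evalQ (e : EQ) (hx : e.x < e.M) (hy : e.y < e.M) (a : E) :
    ∀ i < e.M, ∀ j < e.M, get (evalQ e a) i j = eval e.env a i j := by
  induction a with
  | K nw b => intro i hi j hj; rfl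
  | idW nw => intro i hi j hj; simp [evalQ, eval, get_tab hi hj, EQ.env]
  | one => intro i hi j hj; simp [evalQ, eval, get_tab hi hj]
  | rc c => intro i hi j hj; simp [evalQ, eval, get_tab hi hj, EQ.env]
  | cst c => intro i hi j hj; simp [evalQ, eval, get_tab hi hj, EQ.env]
  | add a b iha ihb =>
    intro i hi j hj
    simp only [evalQ, eval]
    rw [get_tab hi hj, iha i hi j hj, ihb i hi j hj]
  | mul a b iha ihb =>
    intro i hi j hj
    simp only [evalQ, eval]
    rw [get_tab hi hj]
    refine Finset.sum_congr rfl (fun k hk => ?_)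
    have hk := Finset.mem_range.1 hk
    rw [iha i hi k hk, ihb k hk j hj]
  | had a b iha ihb =>
    intro i hi j hj
    simp only [evalQ, eval]
    rw [get_tab hi hj, iha i hi j hj, ihb i hi j hj]
  | pos a iha =>
    intro i hi j hj
    simp only [evalQ, eval]
    rw [get_tab hi hj, iha i hi j hj]
  | tr a iha =>
    intro i hi j hj
    simp only [evalQ, eval]
    rw [get_tab hi hj]
    refine Finset.sum_congr rfl (fun k hk => ?_)
    have hk := Finset.mem_range.1 hk
    rw [iha k hk k hk]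
  | pick p q a iha =>
    intro i hi j hj
    simp only [evalQ, eval]
    rw [get_tab hi hj]
    refine iha _ ?_ _ ?_
    · split_ifs <;> assumption
    · split_ifs <;> assumption

/-! ### poly-time -/

theorem ptu_M : PTU EQ.M := PTU.val (f := fun e : EQ => e.1.1) (by fun_prop)
theorem ptf_x : PTF EQ.x := by unfold EQ.x; fun_prop
theorem ptf_y : PTF EQ.y := by unfold EQ.y; fun_prop
theorem ptu_N : PTU EQ.N := PTU.val (f := fun e : EQ => e.1.2.2.2) (by fun_prop)
theorem ptf_l : PTF EQ.l := by unfold EQ.l; fun_prop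
theorem ptf_K (nw b : Bool) : PTF (fun e : EQ => e.K nw b) := by
  cases nw <;> cases b <;> simp only [EQ.K, if_true, if_false, Bool.false_eq_true] <;> fun_prop
theorem ptf_L (nw : Bool) : PTF (fun e : EQ => e.L nw) := by
  have hx := ptf_x
  have hy := ptf_y
  have hl := ptf_l
  cases nw <;> simp only [EQ.L, if_true, if_false, Bool.false_eq_true]
  · exact hl
  · exact PTF.listCons (PTF.prodMk hx hy) hl

theorem ptf_unused {γ : Type} [PTCode γ] {l : γ → List (ℕ × ℕ)} {i : γ → ℕ} (hl : PTF l)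
    (hi : PTF i) : PTPred (fun c => unused (l c) (i c)) := by
  unfold unused
  refine PTPred.forall_mem (p := fun c (p : ℕ × ℕ) => p.1 ≠ i c ∧ p.2 ≠ i c) hl ?_
  have h1 : PTPred (fun q : γ × (ℕ × ℕ) => q.2.1 = i q.1) :=
    PTPred.natEq (f := fun q : γ × (ℕ × ℕ) => q.2.1) (g := fun q => i q.1) (by fun_prop)
      (PTF.comp hi PTF.fst)
  have h2 : PTPred (fun q : γ × (ℕ × ℕ) => q.2.2 = i q.1) :=
    PTPred.natEq (f := fun q : γ × (ℕ × ℕ) => q.2.2) (g := fun q => i q.1) (by fun_prop)
      (PTF.comp hi PTF.fst)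
  exact PTPred.and (PTPred.not h1) (PTPred.not h2)

theorem ptf_evalQ (a : E) : PTF (fun e : EQ => evalQ e a) := by
  have hM := ptu_M
  induction a with
  | K nw b => exact ptf_K nw b
  | idW nw =>
    refine ptf_tab (f := fun e i j => if i = j ∧ unused (e.L nw) i then 1 else 0) hM ?_
    refine PTF.ite (PTPred.and (PTPred.natEq (by fun_prop) (by fun_prop)) ?_) (PTF.const 1)
      (PTF.const 0)
    exact ptf_unused (l := fun p : (EQ × ℕ) × ℕ => p.1.1.L nw) (i := fun p => p.1.2)
      (PTF.comp (ptf_L nw) (by fun_prop)) (by fun_prop)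
  | one =>
    refine ptf_tab (f := fun e i j => if i = j then 1 else 0) hM ?_
    exact PTF.ite (PTPred.natEq (by fun_prop) (by fun_prop)) (PTF.const 1) (PTF.const 0)
  | rc c =>
    refine ptf_tab (f := fun e i j => c.q e.n e.N) hM ?_
    exact PTF.comp c.ptf (f := fun p : (EQ × ℕ) × ℕ => (p.1.1.2.2.2.1, p.1.1.1.2.2.2))
      (by fun_prop)
  | cst c =>
    refine ptf_tab (f := fun e i j => c.f e.n e.t) hM ?_
    exact PTF.comp c.ptf (f := fun p : (EQ × ℕ) × ℕ => p.1.1.2.2.2) (by fun_prop)
  | add a b iha ihb =>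
    refine ptf_tab (f := fun e i j => get (evalQ e a) i j + get (evalQ e b) i j) hM ?_
    have h1 : PTF (fun p : (EQ × ℕ) × ℕ => evalQ p.1.1 a) := PTF.comp iha (by fun_prop)
    have h2 : PTF (fun p : (EQ × ℕ) × ℕ => evalQ p.1.1 b) := PTF.comp ihb (by fun_prop)
    exact PTF.ratAdd (ptf_get h1 (by fun_prop) (by fun_prop))
      (ptf_get h2 (by fun_prop) (by fun_prop))
  | mul a b iha ihb =>
    refine ptf_tab (f := fun e i j =>
      ∑ k ∈ Finset.range e.M, get (evalQ e a) i k * get (evalQ e b) k j) hM ?_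
    refine PTF.ratSumRange (n := fun p : (EQ × ℕ) × ℕ => p.1.1.M)
      (f := fun p k => get (evalQ p.1.1 a) p.1.2 k * get (evalQ p.1.1 b) k p.2)
      (PTU.comp hM (by fun_prop)) ?_
    have h1 : PTF (fun p : ((EQ × ℕ) × ℕ) × ℕ => evalQ p.1.1.1 a) :=
      PTF.comp iha (by fun_prop)
    have h2 : PTF (fun p : ((EQ × ℕ) × ℕ) × ℕ => evalQ p.1.1.1 b) :=
      PTF.comp ihb (by fun_prop)
    exact PTF.ratMul (ptf_get h1 (by fun_prop) (by fun_prop))
      (ptf_get h2 (by fun_prop) (by fun_prop))
  | had a b iha ihb =>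
    refine ptf_tab (f := fun e i j => get (evalQ e a) i j * get (evalQ e b) i j) hM ?_
    have h1 : PTF (fun p : (EQ × ℕ) × ℕ => evalQ p.1.1 a) := PTF.comp iha (by fun_prop)
    have h2 : PTF (fun p : (EQ × ℕ) × ℕ => evalQ p.1.1 b) := PTF.comp ihb (by fun_prop)
    exact PTF.ratMul (ptf_get h1 (by fun_prop) (by fun_prop))
      (ptf_get h2 (by fun_prop) (by fun_prop))
  | pos a iha =>
    refine ptf_tab (f := fun e i j => max (get (evalQ e a) i j) 0) hM ?_
    have h1 : PTF (fun p : (EQ × ℕ) × ℕ => evalQ p.1.1 a) := PTF.comp iha (by fun_prop)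
    exact ptf_max (ptf_get h1 (by fun_prop) (by fun_prop)) (PTF.const 0)
  | tr a iha =>
    refine ptf_tab (f := fun e i j => ∑ k ∈ Finset.range e.M, get (evalQ e a) k k) hM ?_
    refine PTF.ratSumRange (n := fun p : (EQ × ℕ) × ℕ => p.1.1.M)
      (f := fun p k => get (evalQ p.1.1 a) k k)
      (PTU.comp hM (by fun_prop)) ?_
    have h1 : PTF (fun p : ((EQ × ℕ) × ℕ) × ℕ => evalQ p.1.1.1 a) :=
      PTF.comp iha (by fun_prop)
    exact ptf_get h1 (by fun_prop) (by fun_prop)
  | pick p q a iha =>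
    refine ptf_tab (f := fun e i j =>
      get (evalQ e a) (if p then e.y else e.x) (if q then e.y else e.x)) hM ?_
    have h1 : PTF (fun p : (EQ × ℕ) × ℕ => evalQ p.1.1 a) := PTF.comp iha (by fun_prop)
    have hx : PTF (fun p : (EQ × ℕ) × ℕ => p.1.1.x) := PTF.comp ptf_x (by fun_prop)
    have hy : PTF (fun p : (EQ × ℕ) × ℕ => p.1.1.y) := PTF.comp ptf_y (by fun_prop)
    refine ptf_get h1 ?_ ?_
    · cases p
      · simpa using hx
      · simpa using hy
    · cases q
      · simpa using hx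
      · simpa using hy

/-! ### casting to the reals -/

/-- the real environment of a rational one -/
noncomputable def Env.cast (e : Env ℚ) : Env ℝ where
  M := e.M
  x := e.x
  y := e.y
  K := fun nw b i j => (e.K nw b i j : ℝ)
  W := e.W
  r := fun c => (e.r c : ℝ)
  c := fun c => (e.c c : ℝ)

theorem eval_cast (e : Env ℚ) (a : E) (i j : ℕ) :
    ((eval e a i j : ℚ) : ℝ) = eval e.cast a i j := by
  induction a generalizing i j with
  | K nw b => rfl
  | idW nw =>
    change (((if i = j ∧ e.W nw i = true then (1 : ℚ) else 0) : ℚ) : ℝ) =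
      if i = j ∧ e.W nw i = true then (1 : ℝ) else 0
    split_ifs <;> simp
  | one => simp only [eval]; split_ifs <;> simp
  | rc c => rfl
  | cst c => rfl
  | add a b iha ihb => simp only [eval, Rat.cast_add, iha, ihb]
  | mul a b iha ihb =>
    simp only [eval, Rat.cast_sum, Rat.cast_mul, iha, ihb]
    rfl
  | had a b iha ihb => simp only [eval, Rat.cast_mul, iha, ihb]
  | pos a iha => simp only [eval, Rat.cast_max, iha, Rat.cast_zero]
  | tr a iha => simp only [eval, Rat.cast_sum, iha]; rfl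
  | pick p q a iha => simp only [eval, iha]; rfl

end Crest.Agent.R062.Mach
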