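import Crest.Agent.R062.MachQ
import Crest.Agent.R062.EndPT

/-!
# R62: the machine, the greedy run (definitions and poly-time)
-/

set_option autoImplicit false

namespace Crest.Agent.R062.Mach

open Crest.Agent.Lib.PT

/-- rounding to multiples of `2^-N`, clamped to `[-2^N, 2^N]` -/
def rc (N : ℕ) (q : ℚ) : ℚ :=
  mkRat (max (-((4 ^ N : ℕ) : ℤ)) (min ((4 ^ N : ℕ) : ℤ) ⌊q * ((2 ^ N : ℕ) : ℚ)⌋)) (2 ^ N)

/-- number of bits -/
def bits (κ n : ℕ) : ℕ := κ * (n + 2) ^ 2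

/-- the state of the machine -/
abbrev S := List (ℕ × ℕ) × LM × LM

/-- updated stored matrix -/
def newK (N M : ℕ) (b : Bool) (A : LM) (x y : ℕ) : LM :=
  tab M (fun i j => rc N (upd (sg b) (get A) x y i j))

/-- initial stored matrix -/
def initK (P : Par) (d N n : ℕ) (b : Bool) : LM :=
  tab (n * d) (fun i j => rc N (K0 (P.gam.q n N) (sg b) (P.mu.q n N) n d i j))

/-- the machine environment for the proposal `p` -/
def mkEQ (d κ n : ℕ) (s : S) (p : ℕ × ℕ) : EQ :=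
  ((Un.mk (n * d), p.1, p.2, Un.mk (bits κ n)),
    (s.2.1, s.2.2, newK (bits κ n) (n * d) true s.2.1 p.1 p.2,
      newK (bits κ n) (n * d) false s.2.2 p.1 p.2),
    s.1, Un.mk n, Un.mk s.1.length)

/-- the test: the (rounded) determinants are bounded away from zero and all (rounded)
constraints hold with margin `1 / (2 (n+2)^c)` -/
def Test (d κ c n : ℕ) (cs : List E) (s : S) (p : ℕ × ℕ) : Prop :=
  (3 / 16 ≤ Del (sg true : ℚ) (get s.2.1) p.1 p.2 ∧
    3 / 16 ≤ Del (sg false : ℚ) (get s.2.2) p.1 p.2) ∧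
  ∀ a ∈ cs, ∀ i < n * d, ∀ j < n * d,
    get (evalQ (mkEQ d κ n s p) a) i j * (2 * ((n + 2) ^ c : ℕ)) ≤ -1

instance (d κ c n : ℕ) (cs : List E) (s : S) (p : ℕ × ℕ) : Decidable (Test d κ c n cs s p) := by
  unfold Test; infer_instance

/-- candidates -/
def cands (M : ℕ) : List (ℕ × ℕ) :=
  (List.range M).flatMap (fun x => (List.range M).map (fun y => (x, y)))

theorem mem_cands {M : ℕ} {p : ℕ × ℕ} : p ∈ cands M ↔ p.1 < M ∧ p.2 < M := by
  obtain ⟨x, y⟩ := p
  simp [cands]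

/-- the chosen pair -/
def choice (d κ c n : ℕ) (cs : List E) (s : S) : Option (ℕ × ℕ) :=
  (cands (n * d)).find? (fun p => decide (Pairs.Adm d n s.1 p ∧ Test d κ c n cs s p))

/-- one step -/
def step (d κ c n : ℕ) (cs : List E) (s : S) : S :=
  match choice d κ c n cs s with
  | none => s
  | some p => (p :: s.1, newK (bits κ n) (n * d) true s.2.1 p.1 p.2,
      newK (bits κ n) (n * d) false s.2.2 p.1 p.2)

/-- initial state -/
def init (P : Par) (d κ n : ℕ) : S :=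
  ([], initK P d (bits κ n) n true, initK P d (bits κ n) n false)

/-- state after `t` steps -/
def run (P : Par) (d κ c n : ℕ) (cs : List E) (t : ℕ) : S :=
  (step d κ c n cs)^[t] (init P d κ n)

/-! ### poly-time -/

section ptf

variable {γ : Type} [PTCode γ]

theorem ptu_bits (κ : ℕ) {n : γ → ℕ} (hn : PTU n) : PTU (fun c => bits κ (n c)) := by
  unfold bits
  exact PTU.mul (PTU.const κ) (PTU.pow (PTU.add hn (PTU.const 2)) 2)

theorem ptf_rc {N : γ → ℕ} {q : γ → ℚ} (hN : PTU N) (hq : PTF q) :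
    PTF (fun c => rc (N c) (q c)) := by
  unfold rc
  have h4 : PTF (fun c => 4 ^ N c) := PTF.natPow (PTF.const 4) hN
  have h2 : PTF (fun c => 2 ^ N c) := PTF.natPow (PTF.const 2) hN
  have h4' : PTF (fun c => ((4 ^ N c : ℕ) : ℤ)) := PTF.intNatCast h4
  refine PTF.ratMk (PTF.intMax (PTF.intNeg h4') (PTF.intMin h4' ?_)) h2
  exact PTF.ratFloor (PTF.ratMul hq (PTF.ratNatCast h2))

theorem ptf_Del (b : Bool) {A : γ → LM} {x y : γ → ℕ} (hA : PTF A) (hx : PTF x) (hy : PTF y) :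
    PTF (fun c => Del (sg b : ℚ) (get (A c)) (x c) (y c)) := by
  unfold Del
  have hxy := ptf_get hA hx hy
  have hxx := ptf_get hA hx hx
  have hyy := ptf_get hA hy hy
  exact PTF.ratSub (PTF.ratPowConst (PTF.ratSub (PTF.const 1)
    (PTF.ratMul (PTF.const _) hxy)) 2) (PTF.ratMul hxx hyy)

theorem ptf_updNum (b : Bool) {A : γ → LM} {x y i j : γ → ℕ} (hA : PTF A) (hx : PTF x)
    (hy : PTF y) (hi : PTF i) (hj : PTF j) :
    PTF (fun c => updNum (sg b : ℚ) (get (A c)) (x c) (y c) (i c) (j c)) := by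
  unfold updNum
  have hxy := ptf_get hA hx hy
  have hxx := ptf_get hA hx hx
  have hyy := ptf_get hA hy hy
  have hix := ptf_get hA hi hx
  have hxj := ptf_get hA hx hj
  have hiy := ptf_get hA hi hy
  have hyj := ptf_get hA hy hj
  exact PTF.ratAdd (PTF.ratAdd (PTF.ratMul hyy (PTF.ratMul hix hxj))
    (PTF.ratMul hxx (PTF.ratMul hiy hyj)))
    (PTF.ratMul (PTF.ratMul (PTF.const _) (PTF.ratSub (PTF.const 1)
      (PTF.ratMul (PTF.const _) hxy)))
      (PTF.ratAdd (PTF.ratMul hix hyj) (PTF.ratMul hiy hxj)))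

theorem ptf_upd (b : Bool) {A : γ → LM} {x y i j : γ → ℕ} (hA : PTF A) (hx : PTF x)
    (hy : PTF y) (hi : PTF i) (hj : PTF j) :
    PTF (fun c => upd (sg b : ℚ) (get (A c)) (x c) (y c) (i c) (j c)) := by
  unfold upd
  refine PTF.ite ?_ (PTF.const 0) (PTF.ratAdd (ptf_get hA hi hj)
    (PTF.ratDiv (ptf_updNum b hA hx hy hi hj) (ptf_Del b hA hx hy)))
  exact PTPred.or (PTPred.natEq hi hx) (PTPred.or (PTPred.natEq hi hy)
    (PTPred.or (PTPred.natEq hj hx) (PTPred.natEq hj hy)))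

theorem ptf_newK (b : Bool) {N M : γ → ℕ} {A : γ → LM} {x y : γ → ℕ} (hN : PTU N) (hM : PTU M)
    (hA : PTF A) (hx : PTF x) (hy : PTF y) :
    PTF (fun c => newK (N c) (M c) b (A c) (x c) (y c)) := by
  unfold newK
  refine ptf_tab (f := fun c i j => rc (N c) (upd (sg b) (get (A c)) (x c) (y c) i j)) hM ?_
  refine ptf_rc (PTU.comp hN (f := fun p : (γ × ℕ) × ℕ => p.1.1) (by fun_prop)) ?_
  exact ptf_upd b (A := fun p : (γ × ℕ) × ℕ => A p.1.1) (x := fun p => x p.1.1)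
    (y := fun p => y p.1.1) (i := fun p => p.1.2) (j := fun p => p.2)
    (PTF.comp hA (by fun_prop)) (PTF.comp hx (by fun_prop)) (PTF.comp hy (by fun_prop))
    (by fun_prop) (by fun_prop)

theorem ptf_K0 (d : ℕ) (b : Bool) {n : γ → ℕ} {g m : γ → ℚ} {i j : γ → ℕ} (hn : PTU n)
    (hg : PTF g) (hm : PTF m) (hi : PTF i) (hj : PTF j) :
    PTF (fun c => K0 (g c) (sg b : ℚ) (m c) (n c) d (i c) (j c)) := by
  unfold K0
  have hn' : PTF n := PTU.toPTF hn
  have hnd : PTF (fun c => n c * d) := PTF.natMul hn' (PTF.const d)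
  have hdd : PTF (fun c => i c / d) := PTF.natDiv hi (PTF.const d)
  have hdj : PTF (fun c => j c / d) := PTF.natDiv hj (PTF.const d)
  have hnq : PTF (fun c => ((n c : ℕ) : ℚ)) := PTF.ratNatCast hn'
  refine PTF.ite (PTPred.and (PTPred.natLt hi hnd) (PTPred.natLt hj hnd)) ?_ (PTF.const 0)
  refine PTF.ratSub (PTF.ratAdd (PTF.ratSub (PTF.ite (PTPred.natEq hdd hdj) hm (PTF.const 0))
    (PTF.ite (PTPred.natEq hi hj) hg (PTF.const 0))) ?_) (PTF.ratDiv hm hnq)
  exact PTF.ratDiv (PTF.ratAdd hg (PTF.const _)) (PTF.ratMul hnq (PTF.const _))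

theorem ptf_RC (c : RC) {n N : γ → ℕ} (hn : PTU n) (hN : PTU N) :
    PTF (fun a => c.q (n a) (N a)) :=
  PTF.comp c.ptf (f := fun a => (Un.mk (n a), Un.mk (N a))) (PTF.prodMk hn hN)

theorem ptf_initK (P : Par) (d κ : ℕ) (b : Bool) {n : γ → ℕ} (hn : PTU n) :
    PTF (fun c => initK P d (bits κ (n c)) (n c) b) := by
  unfold initK
  have hN := ptu_bits κ hn
  refine ptf_tab (M := fun c => n c * d) (f := fun c i j => rc (bits κ (n c))
    (K0 (P.gam.q (n c) (bits κ (n c))) (sg b) (P.mu.q (n c) (bits κ (n c))) (n c) d i j))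
    (PTU.mul hn (PTU.const d)) ?_
  have h1 : PTF (fun p : (γ × ℕ) × ℕ => p.1.1) := by fun_prop
  refine ptf_rc (PTU.comp hN (f := fun p : (γ × ℕ) × ℕ => p.1.1) h1) ?_
  exact ptf_K0 d b (n := fun p : (γ × ℕ) × ℕ => n p.1.1)
    (g := fun p => P.gam.q (n p.1.1) (bits κ (n p.1.1)))
    (m := fun p => P.mu.q (n p.1.1) (bits κ (n p.1.1))) (i := fun p => p.1.2) (j := fun p => p.2)
    (PTU.comp hn h1) (PTF.comp (ptf_RC P.gam hn hN) h1) (PTF.comp (ptf_RC P.mu hn hN) h1)
    (by fun_prop) (by fun_prop)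

theorem ptf_init (P : Par) (d κ : ℕ) {n : γ → ℕ} (hn : PTU n) :
    PTF (fun c => init P d κ (n c)) := by
  unfold init
  exact PTF.prodMk (PTF.const []) (PTF.prodMk (ptf_initK P d κ true hn)
    (ptf_initK P d κ false hn))

theorem ptf_cands {M : γ → ℕ} (hM : PTU M) : PTF (fun c => cands (M c)) := by
  unfold cands
  refine PTF.flatMap (PTF.range hM) ?_
  refine PTF.map (γ := γ × ℕ) (l := fun p => List.range (M p.1)) (f := fun p y => (p.2, y))
    (PTF.range (PTU.comp hM (by fun_prop))) (by pt_prop)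

theorem ptf_mkEQ (d κ : ℕ) {n : γ → ℕ} {s : γ → S} {p : γ → ℕ × ℕ} (hn : PTU n) (hs : PTF s)
    (hp : PTF p) : PTF (fun c => mkEQ d κ (n c) (s c) (p c)) := by
  unfold mkEQ
  have hN := ptu_bits κ hn
  have hM : PTU (fun c => n c * d) := PTU.mul hn (PTU.const d)
  have h1 : PTF (fun c => (s c).1) := by fun_prop
  have h2 : PTF (fun c => (s c).2.1) := by fun_prop
  have h3 : PTF (fun c => (s c).2.2) := by fun_prop
  have hx : PTF (fun c => (p c).1) := by fun_prop
  have hy : PTF (fun c => (p c).2) := by fun_prop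
  refine PTF.prodMk (PTF.prodMk hM (PTF.prodMk hx (PTF.prodMk hy hN))) ?_
  refine PTF.prodMk (PTF.prodMk h2 (PTF.prodMk h3 (PTF.prodMk
    (ptf_newK true hN hM h2 hx hy) (ptf_newK false hN hM h3 hx hy)))) ?_
  exact PTF.prodMk h1 (PTF.prodMk hn (PTU.length h1))

theorem ptf_Test (d κ k : ℕ) (cs : List E) {n : γ → ℕ} {s : γ → S} {p : γ → ℕ × ℕ} (hn : PTU n)
    (hs : PTF s) (hp : PTF p) : PTPred (fun c => Test d κ k (n c) cs (s c) (p c)) := by
  unfold Test
  have hM : PTU (fun c => n c * d) := PTU.mul hn (PTU.const d)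
  have he := ptf_mkEQ d κ hn hs hp
  have hx : PTF (fun c => (p c).1) := by fun_prop
  have hy : PTF (fun c => (p c).2) := by fun_prop
  have hd1 := ptf_Del true (A := fun c => (s c).2.1) (by fun_prop) hx hy
  have hd2 := ptf_Del false (A := fun c => (s c).2.2) (by fun_prop) hx hy
  refine PTPred.and (PTPred.and (PTPred.ratLe (PTF.const _) hd1)
    (PTPred.ratLe (PTF.const _) hd2)) ?_
  induction cs with
  | nil => exact (PTPred.const True).of_iff (fun c => by simp)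
  | cons a cs ih =>
    have h1 : PTPred (fun c => ∀ i < n c * d, ∀ j < n c * d,
        get (evalQ (mkEQ d κ (n c) (s c) (p c)) a) i j * (2 * ((n c + 2) ^ k : ℕ)) ≤ -1) := by
      refine PTPred.forall_lt hM ?_
      refine PTPred.forall_lt (n := fun q : γ × ℕ => n q.1 * d)
        (p := fun q j => get (evalQ (mkEQ d κ (n q.1) (s q.1) (p q.1)) a) q.2 j *
          (2 * ((n q.1 + 2) ^ k : ℕ)) ≤ -1) (PTU.comp hM (by fun_prop)) ?_
      have he' : PTF (fun q : (γ × ℕ) × ℕ =>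
          evalQ (mkEQ d κ (n q.1.1) (s q.1.1) (p q.1.1)) a) :=
        PTF.comp (PTF.comp (ptf_evalQ a) he) (f := fun q : (γ × ℕ) × ℕ => q.1.1) (by fun_prop)
      have hnn : PTF (fun q : (γ × ℕ) × ℕ => (((n q.1.1 + 2) ^ k : ℕ) : ℚ)) := by
        refine PTF.ratNatCast (PTF.natPowConst (PTF.natAdd ?_ (PTF.const 2)) k)
        exact PTF.comp (PTU.toPTF hn) (by fun_prop)
      exact PTPred.ratLe (PTF.ratMul (ptf_get he' (by fun_prop) (by fun_prop))
        (PTF.ratMul (PTF.const 2) hnn)) (PTF.const (-1))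
    refine (PTPred.and h1 ih).of_iff (fun c => ?_)
    simp only [List.mem_cons, forall_eq_or_imp]

theorem ptf_choice (d κ k : ℕ) (cs : List E) {n : γ → ℕ} {s : γ → S} (hn : PTU n)
    (hs : PTF s) : PTF (fun c => choice d κ k (n c) cs (s c)) := by
  unfold choice
  have hM : PTU (fun c => n c * d) := PTU.mul hn (PTU.const d)
  refine PTF.find? (p := fun c (p : ℕ × ℕ) =>
    decide (Pairs.Adm d (n c) (s c).1 p ∧ Test d κ k (n c) cs (s c) p)) (ptf_cands hM) ?_
  refine PTPred.toPTF (p := fun q : γ × (ℕ × ℕ) => Pairs.Adm d (n q.1) (s q.1).1 q.2 ∧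
    Test d κ k (n q.1) cs (s q.1) q.2) (PTPred.and ?_ ?_)
  · exact EndPT.pt_adm d (PTU.comp hn PTF.fst) (P := fun q : γ × (ℕ × ℕ) => (s q.1).1)
      (PTF.comp (g := fun s : S => s.1) (by fun_prop) (PTF.comp hs PTF.fst)) PTF.snd
  · exact ptf_Test d κ k cs (γ := γ × (ℕ × ℕ)) (n := fun q => n q.1) (s := fun q => s q.1)
      (p := fun q => q.2) (PTU.comp hn PTF.fst) (PTF.comp hs PTF.fst) PTF.snd

theorem ptf_step (d κ k : ℕ) (cs : List E) {n : γ → ℕ} {s : γ → S} (hn : PTU n)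
    (hs : PTF s) : PTF (fun c => step d κ k (n c) cs (s c)) := by
  unfold step
  have hM : PTU (fun c => n c * d) := PTU.mul hn (PTU.const d)
  have hN := ptu_bits κ hn
  have h1 : PTF (fun q : γ × (ℕ × ℕ) => q.1) := PTF.fst
  have hM' : PTU (fun q : γ × (ℕ × ℕ) => n q.1 * d) := PTU.comp (n := fun c => n c * d) hM h1
  have hN' : PTU (fun q : γ × (ℕ × ℕ) => bits κ (n q.1)) :=
    PTU.comp (n := fun c => bits κ (n c)) hN h1
  have hs' : PTF (fun q : γ × (ℕ × ℕ) => s q.1) := PTF.comp hs h1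
  refine (PTF.optionCasesOn (g := fun c (p : ℕ × ℕ) =>
    (p :: (s c).1, newK (bits κ (n c)) (n c * d) true (s c).2.1 p.1 p.2,
      newK (bits κ (n c)) (n c * d) false (s c).2.2 p.1 p.2)) (ptf_choice d κ k cs hn hs) hs
      ?_).of_eq (fun c => ?_)
  · refine PTF.prodMk (PTF.listCons (by fun_prop) (by fun_prop)) (PTF.prodMk ?_ ?_)
    · exact ptf_newK true hN' hM' (by fun_prop) (by fun_prop) (by fun_prop)
    · exact ptf_newK false hN' hM' (by fun_prop) (by fun_prop) (by fun_prop)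
  · rcases choice d κ k (n c) cs (s c) with _ | p <;> rfl

end ptf

end Crest.Agent.R062.Mach
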