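import Crest.Agent.R062.EndPT
import Crest.Agent.Lib.PT.OfTM
import Crest.Prelude.Def_GraphCode
import Crest.Prelude.Def_Complexity

/-!
Row 62: output of the machine, decoding, and the theorem reducing S0084 to a polynomial-time
selector of pair lists.
-/

set_option autoImplicit false

namespace Crest.Agent.R062.Out

open Crest.Agent.R062.Pairs Crest.Agent.R062.EndComplete Crest.Agent.R062.EndAlg
open Crest.Agent.R062.EndPT
open Crest.Agent.Lib.PT
open Classical
open scoped Matrix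

/-- the graph of a list of stub pairs -/
def G (d n : ℕ) (P : List (ℕ × ℕ)) : SimpleGraph (Fin n) where
  Adj i j := i ≠ j ∧ AdjN d P i j
  symm := ⟨fun _ _ h => ⟨fun e => h.1 e.symm, h.2.symm⟩⟩
  loopless := ⟨fun _ h => h.1 rfl⟩

/-- the output bit matrix -/
def out (d n : ℕ) (P : List (ℕ × ℕ)) : List Bool :=
  (List.range (n * n)).map fun k => decide (AdjN d P (k / n) (k % n))

theorem getD_out {d n : ℕ} {P : List (ℕ × ℕ)} {i j : ℕ} (hi : i < n) (hj : j < n) :
    (out d n P).getD (i * n + j) false = true ↔ AdjN d P i j := by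
  have hlt : i * n + j < n * n := by
    calc i * n + j < i * n + n := by omega
      _ = (i + 1) * n := by ring
      _ ≤ n * n := Nat.mul_le_mul_right n hi
  have h1 : (i * n + j) / n = i := by
    rw [Nat.div_eq_iff (by omega)]
    constructor
    · omega
    · omega
  have h2 : (i * n + j) % n = j := by
    rw [Nat.add_comm, Nat.add_mul_mod_self_right, Nat.mod_eq_of_lt hj]
  unfold out
  rw [List.getD_eq_getElem?_getD, List.getElem?_map, List.getElem?_range hlt]
  simp [h1, h2]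

theorem adjGraph_out (d n : ℕ) (P : List (ℕ × ℕ)) :
    Crest.CombinatoricsR.GraphCode.adjGraph n (out d n P) = G d n P := by
  ext i j
  change (i ≠ j ∧ (out d n P).getD (i.val * n + j.val) false = true ∧
    (out d n P).getD (j.val * n + i.val) false = true) ↔ (i ≠ j ∧ AdjN d P i j)
  rw [getD_out i.2 j.2, getD_out j.2 i.2]
  constructor
  · rintro ⟨h1, h2, _⟩; exact ⟨h1, h2⟩
  · rintro ⟨h1, h2⟩; exact ⟨h1, h2, h2.symm⟩

theorem adjN_lt {d n : ℕ} (hd : 0 < d) {P : List (ℕ × ℕ)} (hV : Valid d n P) {v w : ℕ}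
    (h : AdjN d P v w) : v < n ∧ w < n ∧ v ≠ w := by
  obtain ⟨q, hq, h⟩ := h
  have hg := hV.1 q hq
  have h1 : q.1 / d < n := (Nat.div_lt_iff_lt_mul hd).2 hg.1
  have h2 : q.2 / d < n := (Nat.div_lt_iff_lt_mul hd).2 hg.2.1
  rcases h with ⟨h3, h4⟩ | ⟨h3, h4⟩
  · rw [← h3, ← h4]; exact ⟨h1, h2, hg.2.2⟩
  · rw [← h3, ← h4]; exact ⟨h2, h1, hg.2.2.symm⟩

theorem regular {d n : ℕ} (hd : 0 < d) {P : List (ℕ × ℕ)} (hV : Valid d n P)
    (hf : 2 * P.length = n * d) : (G d n P).IsRegularOfDegree d := by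
  intro v
  have h1 : ((G d n P).neighborFinset v).map Fin.valEmbedding = (nbl d P v).toFinset := by
    ext w
    rw [Finset.mem_map, List.mem_toFinset, mem_nbl]
    constructor
    · rintro ⟨w', hw', rfl⟩
      rw [SimpleGraph.mem_neighborFinset] at hw'
      exact hw'.2
    · intro h
      obtain ⟨h2, h3, h4⟩ := adjN_lt hd hV h
      refine ⟨⟨w, h3⟩, ?_, rfl⟩
      rw [SimpleGraph.mem_neighborFinset]
      exact ⟨fun e => h4 (congrArg Fin.val e), h⟩
  have h2 := congrArg Finset.card h1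
  rw [Finset.card_map, List.toFinset_card_of_nodup (nodup_nbl hV _),
    length_nbl_of_full hd hV hf v.2] at h2
  rw [← SimpleGraph.card_neighborFinset_eq_degree]
  exact h2

section

variable {γ : Type} [PTCode γ]

theorem pt_adjN (d : ℕ) {P : γ → List (ℕ × ℕ)} {v w : γ → ℕ} (hP : PTF P) (hv : PTF v)
    (hw : PTF w) : PTPred (fun c => AdjN d (P c) (v c) (w c)) := by
  unfold AdjN
  refine PTPred.exists_mem hP ?_
  have h1 : PTF (fun q : γ × ℕ × ℕ => q.2.1) := by fun_prop
  have h2 : PTF (fun q : γ × ℕ × ℕ => q.2.2) := by fun_prop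
  have g1 := PTF.natDiv h1 (PTF.const d)
  have g2 := PTF.natDiv h2 (PTF.const d)
  have hv' : PTF (fun q : γ × ℕ × ℕ => v q.1) := hv.comp PTF.fst
  have hw' : PTF (fun q : γ × ℕ × ℕ => w q.1) := hw.comp PTF.fst
  exact ((PTPred.natEq g1 hv').and (PTPred.natEq g2 hw')).or
    ((PTPred.natEq g1 hw').and (PTPred.natEq g2 hv'))

theorem pt_out (d : ℕ) {n : γ → ℕ} {P : γ → List (ℕ × ℕ)} (hn : PTU n) (hP : PTF P) :
    PTF (fun c => out d (n c) (P c)) := by
  unfold out
  refine PTF.tabulate (f := fun c k => decide (AdjN d (P c) (k / n c) (k % n c)))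
    (PTU.mul hn hn) ?_
  dsimp only [PTF₂]
  have hn' : PTF (fun c : γ × ℕ => n c.1) := (hn.comp PTF.fst).toPTF
  exact (pt_adjN d (hP.comp PTF.fst) (PTF.natDiv PTF.snd hn') (PTF.natMod PTF.snd hn')).toPTF

end

/-- the conclusion of S0084 -/
def Concl (d n : ℕ) (H : SimpleGraph (Fin n)) : Prop :=
  H.IsRegularOfDegree d ∧
    ∀ x : Fin n → ℝ, ∑ i, x i = 0 → x ≠ 0 →
      |x ⬝ᵥ (H.adjMatrix ℝ *ᵥ x)| < 2 * Real.sqrt ((d : ℝ) - 1) * (x ⬝ᵥ x)

/-- the spectral bound for a list of pairs -/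
def Spec (d n : ℕ) (P : List (ℕ × ℕ)) : Prop :=
  ∀ x : Fin n → ℝ, ∑ i, x i = 0 → x ≠ 0 →
      |x ⬝ᵥ ((G d n P).adjMatrix ℝ *ᵥ x)| < 2 * Real.sqrt ((d : ℝ) - 1) * (x ⬝ᵥ x)

/-- **Reduction of S0084.** It is enough to have a polynomial-time map `sel` from (unary) `n` to a
valid partial list of pairs, leaving at least `thr d - 1` free stubs, all whose full completions
satisfy the spectral bound. -/
theorem result_of (d : ℕ) (hd : 3 ≤ d) (sel : Un → List (ℕ × ℕ)) (hsel : PTF sel) (n₀ : ℕ)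
    (h : ∀ n, n₀ ≤ n → Even n → Valid d n (sel ⟨n⟩) ∧
      2 * (sel ⟨n⟩).length + thr d ≤ n * d + 1 ∧
      ∀ Q, sel ⟨n⟩ <:+ Q → Valid d n Q → 2 * Q.length = n * d → Spec d n Q) :
    ∃ n₀ : ℕ, ∃ F : List Bool → List Bool, Crest.Complexity.PolyTime F ∧
      ∀ n : ℕ, n₀ ≤ n → Even n →
        (Crest.CombinatoricsR.GraphCode.adjGraph n
            (F (Crest.CombinatoricsR.GraphCode.unary n))).IsRegularOfDegree d ∧
        ∀ x : Fin n → ℝ, ∑ i, x i = 0 → x ≠ 0 →
          |x ⬝ᵥ ((Crest.CombinatoricsR.GraphCode.adjGraph n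
              (F (Crest.CombinatoricsR.GraphCode.unary n))).adjMatrix ℝ *ᵥ x)| <
            2 * Real.sqrt ((d : ℝ) - 1) * (x ⬝ᵥ x) := by
  refine ⟨n₀, fun w => out d w.length (finish d w.length (sel ⟨w.length⟩)), ?_, ?_⟩
  · apply PTF.polyTime
    have hl : PTU (fun w : List Bool => w.length) := PTU.length PTF.id
    have hs : PTF (fun w : List Bool => sel ⟨w.length⟩) := PTF.comp hsel hl
    exact pt_out d hl (pt_finish d hl hs)
  · intro n hn hev
    obtain ⟨h1, h2, h3⟩ := h n hn hev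
    have hd0 : 0 < d := by omega
    obtain ⟨g1, g2, g3⟩ := finish_spec hd0 (hev.mul_right d) h1 h2
    have key : ∀ H : SimpleGraph (Fin n), H = G d n (finish d n (sel ⟨n⟩)) → Concl d n H := by
      rintro H rfl
      exact ⟨regular hd0 g1 g3, h3 _ g2 g1 g3⟩
    refine key _ ?_
    have hl : (Crest.CombinatoricsR.GraphCode.unary n).length = n := by
      simp [Crest.CombinatoricsR.GraphCode.unary]
    change Crest.CombinatoricsR.GraphCode.adjGraph n
      (out d (Crest.CombinatoricsR.GraphCode.unary n).length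
        (finish d (Crest.CombinatoricsR.GraphCode.unary n).length
          (sel ⟨(Crest.CombinatoricsR.GraphCode.unary n).length⟩))) = _
    rw [hl]
    exact adjGraph_out d n _

end Crest.Agent.R062.Out
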